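import Vale.Agent.P157.Lim.Iter

/-! Finite configuration spaces: transfer, splitting, and the deviation penalty. -/

open MeasureTheory ProbabilityTheory Set Filter
open scoped Topology
open Vale.Agent.P150 (gauss dot)

namespace Vale.Agent.P157.Lim

set_option linter.unusedSectionVars false

variable {S S' ι ι' κ : Type*} [Fintype S] [Fintype S'] [Fintype ι] [Fintype ι'] [Fintype κ]
variable {f : ℝ → ℝ} {δ : ℝ}

lemma map_left : (gauss (ι ⊕ κ)).map (fun g k => g (.inl k)) = gauss ι := by
  have h := (measurePreserving_fst (μ := gauss ι) (ν := gauss κ)).comp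
    (measurePreserving_sumPiEquivProdPi (X := fun _ : ι ⊕ κ => ℝ) fun _ => gaussianReal 0 1)
  exact h.map_eq

lemma map_right : (gauss (ι ⊕ κ)).map (fun g k => g (.inr k)) = gauss κ := by
  have h := (measurePreserving_snd (μ := gauss ι) (ν := gauss κ)).comp
    (measurePreserving_sumPiEquivProdPi (X := fun _ : ι ⊕ κ => ℝ) fun _ => gaussianReal 0 1)
  exact h.map_eq

lemma map_reindex (e : ι ≃ ι') : (gauss ι').map (fun g k => g (e k)) = gauss ι := by
  have h := (measurePreserving_piCongrLeft (α := fun _ : ι => ℝ) (fun _ => gaussianReal 0 1) e.symm)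
  have e2 : ⇑(MeasurableEquiv.piCongrLeft (fun _ : ι => ℝ) e.symm) = fun g k => g (e k) := by
    funext g k
    rw [MeasurableEquiv.coe_piCongrLeft]
    have := Equiv.piCongrLeft_apply_apply (fun _ : ι => ℝ) e.symm g (e k)
    simpa using this
  rw [← e2]; exact h.map_eq

variable (hf : Continuous f) (hb : ∀ x, |f x| ≤ δ)
include hf hb

/-- a change of Gaussian coordinates and of state labels -/
lemma avg_transfer {P : (ι' → ℝ) → ι → ℝ} (hPm : Measurable P)
    (hP : (gauss ι').map P = gauss ι) {x : S → ι → ℝ} {y : S' → ι' → ℝ} {T : (S' → ℝ) → S → ℝ}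
    (hT : ∀ E g, T (E + inc f y g) = T E + inc f x (P g))
    {Φ : (S → ℝ) → ℝ} (hΦ : Good Φ) {Ψ : (S' → ℝ) → ℝ} {K : ℝ}
    (h : ∀ E, Ψ E = Φ (T E) + K) (E : S' → ℝ) : avg f y Ψ E = avg f x Φ (T E) + K := by
  have hi := integrable_avg hf hb hΦ x (T E)
  rw [← hP] at hi
  unfold avg
  simp only [h, hT]
  have hi' : Integrable (fun g => Φ (T E + inc f x (P g))) (gauss ι') :=
    (integrable_map_measure hi.1 hPm.aemeasurable).1 hi
  rw [integral_add hi' (integrable_const _)]
  simp only [integral_const, probReal_univ, one_smul]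
  congr 1
  conv_rhs => rw [← hP]
  rw [integral_map hPm.aemeasurable (by
    exact (hΦ.continuous.comp (continuous_const.add (continuous_inc hf hb x))).aestronglyMeasurable)]

lemma iterate_transfer (e : ι ≃ ι') (eS : S ≃ S') {x : S → ι → ℝ} {y : S' → ι' → ℝ}
    (hxy : ∀ s k, y (eS s) (e k) = x s k) {W : S → ℝ} {W' : S' → ℝ} [Nonempty S]
    (hW : ∀ s, 0 < W s) (hWW : ∀ s, W' (eS s) = W s) (M : ℕ) (E : S' → ℝ) :
    (avg f y)^[M] (lse W') E = (avg f x)^[M] (lse W) (fun s => E (eS s)) := by
  induction M generalizing E with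
  | zero =>
    show lse W' E = lse W _
    unfold lse
    rw [← eS.sum_comp]
    simp only [hWW]
  | succ M ih =>
    rw [Function.iterate_succ_apply', Function.iterate_succ_apply']
    have := avg_transfer hf hb (P := fun g k => g (e k)) (by fun_prop) (map_reindex e)
      (x := x) (y := y) (T := fun E s => E (eS s)) (K := 0) (fun E g => by
        funext s
        simp only [Pi.add_apply, inc, dot]
        congr 2
        rw [← e.sum_comp]
        simp only [hxy]) (good_iterate hf hb (good_lse hW) x M) (Ψ := (avg f y)^[M] (lse W'))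
        (fun E => by rw [add_zero]; exact ih E) E
    simpa using this

lemma split [Nonempty S] [Nonempty S'] {W₁ : S → ℝ} {W₂ : S' → ℝ} (w1 : ∀ s, 0 < W₁ s)
    (w2 : ∀ s, 0 < W₂ s) {a : S → ι → ℝ} {b : S' → κ → ℝ} (i j : ℕ) (E₁ : S → ℝ) (E₂ : S' → ℝ) :
    (avg f (cvec (fun s : S × S' => a s.1) (fun s => b s.2) 1))^[i]
      ((avg f (cvec (fun s : S × S' => a s.1) (fun s => b s.2) 0))^[j]
        (lse fun s => W₁ s.1 * W₂ s.2)) (fun s => E₁ s.1 + E₂ s.2) =
      (avg f a)^[i] (lse W₁) E₁ + (avg f b)^[j] (lse W₂) E₂ := by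
  induction i generalizing E₁ with
  | zero =>
    induction j generalizing E₂ with
    | zero =>
      show lse _ _ = lse _ _ + lse _ _
      unfold lse
      rw [← Real.log_mul (Finset.sum_pos (fun s _ => mul_pos (w1 s) (Real.exp_pos _)) Finset.univ_nonempty).ne'
        (Finset.sum_pos (fun s _ => mul_pos (w2 s) (Real.exp_pos _)) Finset.univ_nonempty).ne',
        Finset.sum_mul_sum, Fintype.sum_prod_type]
      simp only [Real.exp_add]
      congr 1
      exact Finset.sum_congr rfl fun s _ => Finset.sum_congr rfl fun t _ => by ring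
    | succ j ih =>
      rw [Function.iterate_zero_apply, Function.iterate_succ_apply', Function.iterate_succ_apply']
      simp only [Function.iterate_zero_apply] at ih ⊢
      have e : ∀ g : ι ⊕ κ → ℝ, (fun s : S × S' => E₁ s.1 + E₂ s.2) +
          inc f (cvec (fun s : S × S' => a s.1) (fun s => b s.2) 0) g =
          fun s => E₁ s.1 + (E₂ + inc f b (fun k => g (.inr k))) s.2 := by
        intro g; funext s
        simp only [Pi.add_apply, inc, dot, cvec, Fintype.sum_sum_type]
        simp [add_assoc]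
      have hm : Measurable fun (g : ι ⊕ κ → ℝ) k => g (.inr k) := by fun_prop
      have hgood := good_iterate hf hb (good_lse w2) b j
      have hi := integrable_avg hf hb hgood b E₂
      rw [← map_right (ι := ι)] at hi
      conv_lhs => rw [avg]
      simp only [e]
      have hi' : Integrable (fun g : ι ⊕ κ → ℝ => (avg f b)^[j] (lse W₂)
          (E₂ + inc f b (fun k => g (.inr k)))) (gauss (ι ⊕ κ)) :=
        (integrable_map_measure hi.1 hm.aemeasurable).1 hi
      simp only [ih]
      rw [integral_add (integrable_const _) hi']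
      simp only [integral_const, probReal_univ, one_smul]
      congr 1
      show _ = ∫ g, _ ∂gauss κ
      conv_rhs => rw [← map_right (ι := ι)]
      exact (integral_map hm.aemeasurable hi.1).symm
  | succ i ih =>
    rw [Function.iterate_succ_apply', Function.iterate_succ_apply']
    have e : ∀ g : ι ⊕ κ → ℝ, (fun s : S × S' => E₁ s.1 + E₂ s.2) +
        inc f (cvec (fun s : S × S' => a s.1) (fun s => b s.2) 1) g =
        fun s => (E₁ + inc f a (fun k => g (.inl k))) s.1 + E₂ s.2 := by
      intro g; funext s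
      simp only [Pi.add_apply, inc, dot, cvec, Fintype.sum_sum_type]
      simp only [sub_self, Real.sqrt_zero, zero_mul, Sum.elim_inl, Sum.elim_inr, Real.sqrt_one, one_mul,
        Finset.sum_const_zero, add_zero]
      ring
    have hm : Measurable fun (g : ι ⊕ κ → ℝ) k => g (.inl k) := by fun_prop
    have hgood := good_iterate hf hb (good_lse w1) a i
    have hi := integrable_avg hf hb hgood a E₁
    rw [← map_left (κ := κ)] at hi
    conv_lhs => rw [avg]
    simp only [e]
    have hi' : Integrable (fun g : ι ⊕ κ → ℝ => (avg f a)^[i] (lse W₁)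
        (E₁ + inc f a (fun k => g (.inl k)))) (gauss (ι ⊕ κ)) :=
      (integrable_map_measure hi.1 hm.aemeasurable).1 hi
    simp only [ih]
    rw [integral_add hi' (integrable_const _)]
    simp only [integral_const, probReal_univ, one_smul]
    congr 1
    show _ = ∫ g, _ ∂gauss ι
    conv_rhs => rw [← map_left (κ := κ)]
    exact (integral_map hm.aemeasurable hi.1).symm


omit hf hb

/-- the interpolation inequality after the deviation penalty -/
lemma penalty [Nonempty S] [Nonempty S'] {f1 f2 f3 : ℝ → ℝ} (hP : Pot f f1 f2 f3 δ) (hδ : δ ≤ 1 / 8)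
    (hpair : PairPos (ι ⊕ κ) f1 f2 δ) {W₁ : S → ℝ} {W₂ : S' → ℝ} (w1 : ∀ s, 0 < W₁ s)
    (w2 : ∀ s, 0 < W₂ s) {a : S → ι → ℝ} {b : S' → κ → ℝ} (ha : ∀ s, dot (a s) (a s) = 1)
    (hb' : ∀ s, dot (b s) (b s) = 1) {t : ℝ} (h0 : 0 ≤ t) (h1 : t ≤ 1) (M m₁ m₂ : ℕ) {r : ℝ} (hr : 0 < r) :
    (avg f a)^[m₁] (lse W₁) 0 + (avg f b)^[m₂] (lse W₂) 0 - δ * r
      - δ / (2 * r) * ((M:ℝ) * t * (1 - t) + (t * M - m₁) ^ 2
          + ((M:ℝ) * t * (1 - t) + ((1 - t) * M - m₂) ^ 2)) ≤
      (avg f (cvec (fun s : S × S' => a s.1) (fun s => b s.2) t))^[M]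
        (lse fun s => W₁ s.1 * W₂ s.2) 0 := by
  have hf : Continuous f := continuous_iff_continuousAt.2 fun x => (hP.d0 x).continuousAt
  have hb := hP.b0
  have hδ0 : 0 ≤ δ := delta_nonneg hf hb
  set A := fun i => (avg f a)^[i] (lse W₁) 0
  set B := fun j => (avg f b)^[j] (lse W₂) 0
  refine le_trans ?_ (mixture_le (W := fun s : S × S' => W₁ s.1 * W₂ s.2) (a := fun s : S × S' => a s.1)
    (b := fun s => b s.2) hP hδ hpair (fun s => mul_pos (w1 s.1) (w2 s.2))
    (fun s => ha s.1) (fun s => hb' s.2) h0 h1 M 0)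
  have hsplit : ∀ i j, (avg f (cvec (fun s : S × S' => a s.1) (fun s => b s.2) 1))^[i]
      ((avg f (cvec (fun s : S × S' => a s.1) (fun s => b s.2) 0))^[j]
        (lse fun s => W₁ s.1 * W₂ s.2)) 0 = A i + B j := fun i j => by
    have := split hf hb w1 w2 (a := a) (b := b) i j 0 0
    simp only [Pi.zero_apply, add_zero] at this
    exact this
  simp only [hsplit]
  have lip : ∀ (i k : ℕ) (u v : ℝ), |u - v| ≤ δ * |(i:ℝ) - k| →
      v - (δ / (2 * r) * ((i:ℝ) - k) ^ 2 + δ * r / 2) ≤ u := by
    intro i k u v h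
    have hx : |(i:ℝ) - k| ≤ (((i:ℝ) - k) ^ 2 / r + r) / 2 := by
      rw [div_add' _ _ _ hr.ne', div_div, le_div_iff₀ (by positivity)]
      nlinarith [sq_nonneg (|(i:ℝ) - k| - r), sq_abs ((i:ℝ) - k)]
    have hmul := mul_le_mul_of_nonneg_left hx hδ0
    rw [show δ * ((((i:ℝ) - k) ^ 2 / r + r) / 2) = δ / (2 * r) * ((i:ℝ) - k) ^ 2 + δ * r / 2 by
      field_simp] at hmul
    linarith [(abs_le.1 h).1]
  refine le_trans ?_ (binAvg_mono h0 h1 M fun i j =>
    (show A m₁ + B m₂ - δ * r + (-(δ / (2 * r))) * ((i:ℝ) - m₁) ^ 2 +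
      (-(δ / (2 * r))) * ((j:ℝ) - m₂) ^ 2 ≤ A i + B j by
        have a1 := lip i m₁ (A i) (A m₁) (abs_iterate_sub hf hb (good_lse w1) a 0 i m₁)
        have a2 := lip j m₂ (B j) (B m₂) (abs_iterate_sub hf hb (good_lse w2) b 0 j m₂)
        linarith))
  have L1 := binAvg_lin t 1 (-(δ / (2 * r))) M
    (fun i _ => A m₁ + B m₂ - δ * r + (-(δ / (2 * r))) * ((i:ℝ) - m₁) ^ 2)
    (fun _ j => ((j:ℝ) - m₂) ^ 2)
  have L2 := binAvg_lin t 1 (-(δ / (2 * r))) M
    (fun _ _ => A m₁ + B m₂ - δ * r) (fun i _ => ((i:ℝ) - m₁) ^ 2)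
  simp only [one_mul] at L1 L2
  rw [L1, L2, binAvg_const, binAvg_sq, binAvg_sq']
  linarith

/-- iterated averaging as an integral over all patterns -/
lemma iterate_eq_integral [Nonempty S] (hf : Continuous f) (hb : ∀ x, |f x| ≤ δ) {W : S → ℝ}
    (hW : ∀ s, 0 < W s) (x : S → ι → ℝ) : ∀ (M : ℕ) (E : S → ℝ),
    (avg f x)^[M] (lse W) E =
      ∫ g, lse W (E + ∑ a, inc f x (g a)) ∂Measure.pi (fun _ : Fin M => gauss ι) := by
  intro M
  have hL : Good (lse W) := good_lse hW
  induction M with
  | zero => intro E; simp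
  | succ M ih =>
    intro E
    rw [Function.iterate_succ_apply', avg]
    simp only [ih]
    have hp := (measurePreserving_piFinSuccAbove (fun _ : Fin (M+1) => gauss ι) 0).symm
    rw [← hp.integral_comp', integral_prod]
    · refine integral_congr_ae (Eventually.of_forall fun g => integral_congr_ae
        (Eventually.of_forall fun g' => ?_))
      simp [MeasurableEquiv.piFinSuccAbove, Fin.insertNthEquiv, Fin.insertNth_zero',
        Fin.sum_univ_succ, add_assoc]
    · refine (hp.integrable_comp_emb (g := fun g => lse W (E + ∑ a, inc f x (g a)))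
        (MeasurableEquiv.measurableEmbedding _)).2 ?_
      refine Integrable.of_bound (Continuous.aestronglyMeasurable ?_)
        (|lse W E| + (M+1:ℕ) * δ) (Eventually.of_forall fun g => ?_)
      · exact hL.continuous.comp (continuous_const.add (continuous_finsetSum _ fun a _ =>
          (continuous_inc hf hb _).comp (continuous_apply a)))
      · have := abs_le.1 (hL.bound E (∑ a, inc f x (g a)) (r := (M+1:ℕ) * δ)
          (mul_nonneg (Nat.cast_nonneg _) (delta_nonneg hf hb)) fun s => by
            rw [Finset.sum_apply]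
            refine (Finset.abs_sum_le_sum_abs _ _).trans
              ((Finset.sum_le_sum fun a _ => hb _).trans (by simp)))
        rw [Real.norm_eq_abs, abs_le]
        constructor <;> linarith [le_abs_self (lse W E), neg_abs_le (lse W E)]

end Vale.Agent.P157.Lim
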