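import Mathlib

/-! An almost-subadditive sequence with `√` error, bounded below, has a limit after division by `n`. -/

open Filter Topology

namespace Vale.Agent.P157.Lim

lemma mult_bound {u : ℕ → ℝ} {C : ℝ} (hC : 0 ≤ C)
    (h : ∀ m n, 1 ≤ m → 1 ≤ n → u (m + n) ≤ u m + u n + C * √((m : ℝ) + n)) {n : ℕ} (hn : 1 ≤ n)
    (k : ℕ) (hk : 1 ≤ k) :
    u (k * n) ≤ k * (u n + 7 * C * √n) - 7 * C * √((k : ℝ) * n) := by
  induction k using Nat.strong_induction_on with
  | _ k ih =>
    rcases Nat.lt_or_ge k 2 with h2 | h2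
    · obtain rfl : k = 1 := by omega
      simp
    · set p := k / 2 with hp
      set q := k - k / 2 with hq
      have hpq : k = p + q := by omega
      have hp1 : 1 ≤ p := by omega
      have hq1 : 1 ≤ q := by omega
      have a := ih p (by omega) hp1
      have b := ih q (by omega) hq1
      have c := h (p * n) (q * n) (Nat.mul_pos hp1 hn) (Nat.mul_pos hq1 hn)
      have e : k * n = p * n + q * n := by rw [hpq]; ring
      rw [e]
      push_cast at c
      -- √(p n) + √(q n) ≥ (8/7) √(k n)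
      set P := (p : ℝ) * n
      set Q := (q : ℝ) * n
      have hP : (k:ℝ) * n / 3 ≤ P := by
        have : (k:ℝ) ≤ 3 * p := by exact_mod_cast (show k ≤ 3 * p by omega)
        have hn0 : (0:ℝ) ≤ n := Nat.cast_nonneg n
        have := mul_le_mul_of_nonneg_right this hn0
        show _ ≤ (p:ℝ) * n
        linarith
      have hQ : (k:ℝ) * n / 2 ≤ Q := by
        have : (k:ℝ) ≤ 2 * q := by exact_mod_cast (show k ≤ 2 * q by omega)
        have hn0 : (0:ℝ) ≤ n := Nat.cast_nonneg n
        have := mul_le_mul_of_nonneg_right this hn0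
        show _ ≤ (q:ℝ) * n
        linarith
      have hK : (0:ℝ) ≤ (k:ℝ) * n := by positivity
      have e2 : (k:ℝ) * n = P + Q := by
        show (k:ℝ) * n = (p:ℝ) * n + (q:ℝ) * n
        rw [hpq]; push_cast; ring
      have hs : 8 / 7 * √((k:ℝ) * n) ≤ √P + √Q := by
        have h1 : √((k:ℝ) * n) * (1 / 2) ≤ √P := by
          rw [show (1/2:ℝ) = √(1/4) by rw [show (1/4:ℝ) = (1/2)^2 by norm_num, Real.sqrt_sq (by norm_num)],
            ← Real.sqrt_mul hK]
          exact Real.sqrt_le_sqrt (by linarith)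
        have h2 : √((k:ℝ) * n) * (7 / 10) ≤ √Q := by
          rw [show (7/10:ℝ) = √(49/100) by rw [show (49/100:ℝ) = (7/10)^2 by norm_num, Real.sqrt_sq (by norm_num)],
            ← Real.sqrt_mul hK]
          exact Real.sqrt_le_sqrt (by linarith)
        linarith [Real.sqrt_nonneg ((k:ℝ) * n)]
      have hs' := mul_le_mul_of_nonneg_left hs (show 0 ≤ 7 * C by positivity)
      rw [← e2] at c
      have ek : (k:ℝ) = p + q := by exact_mod_cast hpq
      have e3 : (k:ℝ) * (u n + 7 * C * √n) = p * (u n + 7 * C * √n) + q * (u n + 7 * C * √n) := by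
        rw [ek]; ring
      linarith

lemma tendsto_div_of_almost_subadd {u : ℕ → ℝ} {C L : ℝ} (hC : 0 ≤ C)
    (h : ∀ m n, 1 ≤ m → 1 ≤ n → u (m + n) ≤ u m + u n + C * √((m : ℝ) + n))
    (hbelow : ∀ n : ℕ, 1 ≤ n → L ≤ u n / n) :
    ∃ l, Tendsto (fun n => u n / n) atTop (𝓝 l) := by
  set A : Set ℝ := {x | ∃ n : ℕ, 1 ≤ n ∧ x = u n / n + 7 * C * √n / n}
  have hA : A.Nonempty := ⟨_, 1, le_rfl, rfl⟩
  have hAb : BddBelow A := ⟨L, by
    rintro x ⟨n, hn, rfl⟩
    have : 0 ≤ 7 * C * √n / n := by positivity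
    linarith [hbelow n hn]⟩
  refine ⟨sInf A, ?_⟩
  rw [Metric.tendsto_atTop]
  intro ε hε
  obtain ⟨x, ⟨n, hn, rfl⟩, hx⟩ := exists_lt_of_csInf_lt hA (show sInf A < sInf A + ε / 2 by linarith)
  have hn0 : (0:ℝ) < n := by exact_mod_cast hn
  set a := u n / n + 7 * C * √n / n
  set R : ℝ := ∑ r ∈ Finset.range n, (|u r| + r * |a|)
  have hR : 0 ≤ R := Finset.sum_nonneg fun r _ => by positivity
  have l1 : Tendsto (fun N : ℕ => R / N) atTop (𝓝 0) := tendsto_const_nhds.div_atTop tendsto_natCast_atTop_atTop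
  have l2 : Tendsto (fun N : ℕ => C / √(N:ℝ)) atTop (𝓝 0) :=
    tendsto_const_nhds.div_atTop (Real.tendsto_sqrt_atTop.comp tendsto_natCast_atTop_atTop)
  have l3 : Tendsto (fun N : ℕ => 7 * C / √(N:ℝ)) atTop (𝓝 0) :=
    tendsto_const_nhds.div_atTop (Real.tendsto_sqrt_atTop.comp tendsto_natCast_atTop_atTop)
  obtain ⟨N1, hN1⟩ := eventually_atTop.1 (((l1.add l2).add l3).eventually (gt_mem_nhds (show (0:ℝ) + 0 + 0 < ε / 2 by linarith)))
  refine ⟨max N1 n, fun N hN => ?_⟩
  have hNn : n ≤ N := le_of_max_le_right hN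
  have hN0' : 1 ≤ N := hn.trans hNn
  have hN0 : (0:ℝ) < N := by exact_mod_cast hN0'
  have small := hN1 N (le_of_max_le_left hN)
  have sN : √(N:ℝ) / N = 1 / √(N:ℝ) := by
    rw [div_eq_div_iff hN0.ne' (Real.sqrt_pos.2 hN0).ne', one_mul, Real.mul_self_sqrt hN0.le]
  -- lower bound
  have low : sInf A ≤ u N / N + 7 * C / √(N:ℝ) := by
    refine csInf_le hAb ⟨N, hN0', ?_⟩
    rw [mul_div_assoc (7 * C), sN, mul_one_div]
  -- upper bound
  set k := N / n with hk
  set r := N % n with hr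
  have hk1 : 1 ≤ k := (Nat.one_le_div_iff hn).2 hNn
  have hrn : r < n := Nat.mod_lt _ hn
  have hkr : N = k * n + r := by rw [hk, hr, mul_comm]; exact (Nat.div_add_mod N n).symm
  have hm := mult_bound hC h hn k hk1
  have hsk : 0 ≤ 7 * C * √((k : ℝ) * n) := by positivity
  have hNr : (N:ℝ) = k * n + r := by exact_mod_cast hkr
  have hka : (k:ℝ) * (u n + 7 * C * √n) = (k * n) * a := by
    simp only [a]; field_simp
  have hrR : |u r| + r * |a| ≤ R :=
    Finset.single_le_sum (f := fun r : ℕ => |u r| + r * |a|) (fun r _ => by positivity)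
      (Finset.mem_range.2 hrn)
  have main : u N ≤ N * a + R + C * √(N:ℝ) := by
    have hCN : 0 ≤ C * √(N:ℝ) := by positivity
    rcases Nat.eq_zero_or_pos r with hr0 | hr0
    · rw [hr0, add_zero] at hkr
      rw [hkr] at hCN ⊢
      push_cast at hCN ⊢
      linarith
    · have c := h (k * n) r (Nat.mul_pos hk1 hn) hr0
      push_cast at c
      rw [← hkr, ← hNr] at c
      have : -(r:ℝ) * a ≤ r * |a| := by
        rw [neg_mul, ← mul_neg]
        exact mul_le_mul_of_nonneg_left (neg_le_abs a) (Nat.cast_nonneg r)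
      rw [hNr] at *
      linarith [le_abs_self (u r)]
  have up : u N / N ≤ a + R / N + C / √(N:ℝ) := by
    rw [show C / √(N:ℝ) = C * √(N:ℝ) / N by rw [mul_div_assoc, sN, mul_one_div]]
    rw [div_le_iff₀ hN0]
    field_simp
    linarith
  have p1 : 0 ≤ R / N := by positivity
  have p2 : 0 ≤ C / √(N:ℝ) := by positivity
  have p3 : 0 ≤ 7 * C / √(N:ℝ) := by positivity
  rw [Real.dist_eq, abs_lt]
  constructor <;> linarith

end Vale.Agent.P157.Lim
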