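import Vale.Agent.P157.Lim.Step

/-! Concavity along the interpolation, and the resulting one-pattern inequality. -/

open MeasureTheory ProbabilityTheory Set
open Vale.Agent.P150

namespace Vale.Agent.P157.Lim

set_option linter.unusedSectionVars false

variable {S ι κ : Type*} [Fintype S] [Fintype ι] [Fintype κ] [Nonempty S]
variable {W : S → ℝ} {f f1 f2 f3 : ℝ → ℝ} {δ : ℝ}

lemma pointwise (hP : Pot f f1 f2 f3 δ) (hW : ∀ s, 0 < W s) (hδ : δ ≤ 1 / 8) (D : S → S → ℝ)
    (z : S → ℝ) :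
    -(∑ v, ∑ u, D v u ^ 2 * (pc W f f1 f2 z u * pc W f f1 f2 z v))
      + 4 * ∑ v, pc W f f1 f2 z v * Dr W f f1 D z v ^ 2 - 3 * rDr W f f1 D z ^ 2 ≤
    ∑ v, ∑ u, D v u ^ 2 * (W u * W v / (∑ s, W s) ^ 2) *
      (48 * δ ^ 3 - cf f1 f2 (z u) * cf f1 f2 (z v)) := by
  have hδ0 : 0 ≤ δ := (abs_nonneg _).trans (hP.b0 0)
  have hS : 0 < ∑ s, W s := Finset.sum_pos (fun s _ => hW s) Finset.univ_nonempty
  have hd := den_pos (f := f) (z := z) hW
  set p := pp W f z with hp
  set w := fun v => W v / ∑ s, W s with hw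
  have p0 : ∀ v, 0 ≤ p v := fun v => pp_nonneg hW v
  have w0 : ∀ v, 0 < w v := fun v => div_pos (hW v) hS
  have hb := fun s => abs_le.1 (hP.b0 (z s))
  have dl : (∑ s, W s) * Real.exp (-δ) ≤ den W f z := by
    rw [den, Finset.sum_mul]
    exact Finset.sum_le_sum fun s _ =>
      mul_le_mul_of_nonneg_left (Real.exp_le_exp.2 (hb s).1) (hW s).le
  have du : den W f z ≤ (∑ s, W s) * Real.exp δ := by
    rw [den, Finset.sum_mul]
    exact Finset.sum_le_sum fun s _ =>
      mul_le_mul_of_nonneg_left (Real.exp_le_exp.2 (hb s).2) (hW s).le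
  have pu : ∀ v, p v ≤ w v * Real.exp (2 * δ) := by
    intro v
    rw [hp, hw, pp, ← div_eq_mul_inv, div_le_iff₀ hd]
    have e : W v * Real.exp δ = W v / (∑ s, W s) * Real.exp (2 * δ) * ((∑ s, W s) * Real.exp (-δ)) := by
      have : Real.exp δ = Real.exp (2 * δ) * Real.exp (-δ) := by rw [← Real.exp_add]; ring_nf
      rw [this]; field_simp
    calc W v * Real.exp (f (z v)) ≤ W v * Real.exp δ :=
          mul_le_mul_of_nonneg_left (Real.exp_le_exp.2 (hb v).2) (hW v).le
      _ ≤ _ := by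
          rw [e]; exact mul_le_mul_of_nonneg_left dl (mul_nonneg (w0 v).le (Real.exp_pos _).le)
  have pl : ∀ v, w v * Real.exp (-(2 * δ)) ≤ p v := by
    intro v
    rw [hp, hw, pp, ← div_eq_mul_inv, le_div_iff₀ hd]
    have e : W v * Real.exp (-δ) = W v / (∑ s, W s) * Real.exp (-(2 * δ)) * ((∑ s, W s) * Real.exp δ) := by
      have : Real.exp (-δ) = Real.exp (-(2 * δ)) * Real.exp δ := by rw [← Real.exp_add]; ring_nf
      rw [this]; field_simp
    calc _ ≤ W v / (∑ s, W s) * Real.exp (-(2 * δ)) * ((∑ s, W s) * Real.exp δ) :=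
          mul_le_mul_of_nonneg_left du (mul_nonneg (w0 v).le (Real.exp_pos _).le)
      _ ≤ _ := by
          rw [← e]; exact mul_le_mul_of_nonneg_left (Real.exp_le_exp.2 (hb v).1) (hW v).le
  have pq : ∀ v u, |p u * p v - w u * w v| ≤ 8 * δ * (w u * w v) := by
    intro v u
    have q0 := (mul_pos (w0 u) (w0 v)).le
    have h1 : p u * p v ≤ w u * w v * Real.exp (4 * δ) := by
      calc _ ≤ _ := mul_le_mul (pu u) (pu v) (p0 v) (mul_nonneg (w0 u).le (Real.exp_pos _).le)
        _ = _ := by rw [show 4 * δ = 2 * δ + 2 * δ by ring, Real.exp_add]; ring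
    have h2 : w u * w v * Real.exp (-(4 * δ)) ≤ p u * p v := by
      calc w u * w v * Real.exp (-(4 * δ)) = (w u * Real.exp (-(2 * δ))) * (w v * Real.exp (-(2 * δ))) := by
            rw [show -(4 * δ) = -(2 * δ) + -(2 * δ) by ring, Real.exp_add]; ring
        _ ≤ _ := mul_le_mul (pl u) (pl v) (mul_nonneg (w0 v).le (Real.exp_pos _).le) (p0 u)
    have a4 : |4 * δ| ≤ 1 := by rw [abs_of_nonneg (by positivity)]; linarith
    have e1 := abs_le.1 (Real.abs_exp_sub_one_le a4)
    have e2 := abs_le.1 (Real.abs_exp_sub_one_le (x := -(4 * δ)) (by rwa [abs_neg]))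
    rw [abs_of_nonneg (by positivity : 0 ≤ 4 * δ)] at e1
    rw [abs_neg, abs_of_nonneg (by positivity : 0 ≤ 4 * δ)] at e2
    have m1 := mul_le_mul_of_nonneg_left e1.2 q0
    have m2 := mul_le_mul_of_nonneg_left e2.1 q0
    rw [abs_le]; constructor <;> linarith
  have cb : ∀ x, |cf f1 f2 x| ≤ 2 * δ := by
    intro x
    refine (abs_add_le _ _).trans ?_
    rw [abs_mul]
    have := mul_le_mul (hP.b1 x) ((hP.b1 x).trans (by linarith : δ ≤ 1)) (abs_nonneg _) hδ0
    linarith [hP.b2 x]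
  have hDr : ∀ v, Dr W f f1 D z v ^ 2 ≤ δ ^ 2 * ∑ u, D v u ^ 2 * p u := by
    intro v
    have cs := Finset.sum_mul_sq_le_sq_mul_sq Finset.univ (fun u => D v u * √(p u))
      (fun u => √(p u) * f1 (z u))
    have e : ∀ u, D v u * √(p u) * (√(p u) * f1 (z u)) = D v u * rr W f f1 z u := fun u => by
      rw [rr, ← hp]; linear_combination (D v u * f1 (z u)) * Real.mul_self_sqrt (p0 u)
    have e2 : ∀ u, (D v u * √(p u)) ^ 2 = D v u ^ 2 * p u := fun u => by
      rw [mul_pow, Real.sq_sqrt (p0 u)]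
    have e3 : ∑ u, (√(p u) * f1 (z u)) ^ 2 ≤ δ ^ 2 := by
      calc _ ≤ ∑ u, p u * δ ^ 2 := Finset.sum_le_sum fun u _ => by
            rw [mul_pow, Real.sq_sqrt (p0 u)]
            refine mul_le_mul_of_nonneg_left ?_ (p0 u)
            rw [← sq_abs (f1 (z u))]; exact pow_le_pow_left₀ (abs_nonneg _) (hP.b1 _) 2
        _ = δ ^ 2 := by rw [← Finset.sum_mul, hp, sum_pp hW, one_mul]
    simp only [e, e2] at cs
    rw [Dr, mul_comm]
    exact cs.trans (mul_le_mul_of_nonneg_left e3 (Finset.sum_nonneg fun u _ => mul_nonneg (sq_nonneg _) (p0 u)))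
  have h4 : 4 * ∑ v, pc W f f1 f2 z v * Dr W f f1 D z v ^ 2 ≤
      ∑ v, ∑ u, D v u ^ 2 * (8 * δ ^ 3 * (p u * p v)) := by
    rw [Finset.mul_sum]
    refine Finset.sum_le_sum fun v _ => ?_
    have hpc : pc W f f1 f2 z v ≤ p v * (2 * δ) :=
      mul_le_mul_of_nonneg_left (abs_le.1 (cb _)).2 (p0 v)
    calc 4 * (pc W f f1 f2 z v * Dr W f f1 D z v ^ 2)
        ≤ 4 * (p v * (2 * δ) * Dr W f f1 D z v ^ 2) :=
          mul_le_mul_of_nonneg_left (mul_le_mul_of_nonneg_right hpc (sq_nonneg _)) (by norm_num)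
      _ ≤ 4 * (p v * (2 * δ) * (δ ^ 2 * ∑ u, D v u ^ 2 * p u)) :=
          mul_le_mul_of_nonneg_left (mul_le_mul_of_nonneg_left (hDr v)
            (mul_nonneg (p0 v) (by positivity))) (by norm_num)
      _ = _ := by rw [Finset.mul_sum, Finset.mul_sum, Finset.mul_sum]
                  exact Finset.sum_congr rfl fun u _ => by ring
  have key : ∀ v u, 8 * δ ^ 3 * (p u * p v) - pc W f f1 f2 z u * pc W f f1 f2 z v ≤
      W u * W v / (∑ s, W s) ^ 2 * (48 * δ ^ 3 - cf f1 f2 (z u) * cf f1 f2 (z v)) := by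
    intro v u
    rw [show W u * W v / (∑ s, W s) ^ 2 = w u * w v by rw [hw]; field_simp]
    simp only [pc, ← hp]
    set c := cf f1 f2 (z u) * cf f1 f2 (z v) with hcdef
    have hc : |c| ≤ 4 * δ ^ 2 := by
      rw [hcdef, abs_mul]
      calc _ ≤ 2 * δ * (2 * δ) := mul_le_mul (cb _) (cb _) (abs_nonneg _) (by positivity)
        _ = _ := by ring
    have h1 : -((p u * p v - w u * w v) * c) ≤ 8 * δ * (w u * w v) * (4 * δ ^ 2) := by
      refine (neg_le_abs _).trans ?_
      rw [abs_mul]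
      exact mul_le_mul (pq v u) hc (abs_nonneg _) (by have := w0 u; have := w0 v; positivity)
    have h2 : p u * p v ≤ 2 * (w u * w v) := by
      have := (abs_le.1 (pq v u)).2
      nlinarith [mul_pos (w0 u) (w0 v)]
    have h2' := mul_le_mul_of_nonneg_left h2 (show 0 ≤ 8 * δ ^ 3 by positivity)
    nlinarith
  have h5 : 0 ≤ rDr W f f1 D z ^ 2 := sq_nonneg _
  calc _ ≤ -(∑ v, ∑ u, D v u ^ 2 * (pc W f f1 f2 z u * pc W f f1 f2 z v))
        + ∑ v, ∑ u, D v u ^ 2 * (8 * δ ^ 3 * (p u * p v)) := by linarith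
    _ = ∑ v, ∑ u, D v u ^ 2 * (8 * δ ^ 3 * (p u * p v) - pc W f f1 f2 z u * pc W f f1 f2 z v) := by
        simp only [mul_sub, Finset.sum_sub_distrib]; ring
    _ ≤ _ := Finset.sum_le_sum fun v _ => Finset.sum_le_sum fun u _ => by
        rw [mul_assoc (D v u ^ 2)]; exact mul_le_mul_of_nonneg_left (key v u) (sq_nonneg _)

/-- one-pattern free energy along the interpolation -/
noncomputable def phi (W : S → ℝ) (f : ℝ → ℝ) (a : S → ι → ℝ) (b : S → κ → ℝ) (t : ℝ) : ℝ :=
  ∫ g, Real.log (den W f (field a b t g)) ∂gauss (ι ⊕ κ)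

/-- positivity of the two-point function of `f'² + f''` -/
def PairPos (ι : Type*) [Fintype ι] (f1 f2 : ℝ → ℝ) (δ : ℝ) : Prop :=
  ∀ u v : ι → ℝ, dot u u = 1 → dot v v = 1 →
    48 * δ ^ 3 ≤ ∫ g, cf f1 f2 (dot u g) * cf f1 f2 (dot v g) ∂gauss ι

lemma phi_concave (hP : Pot f f1 f2 f3 δ) (hW : ∀ s, 0 < W s) (hδ : δ ≤ 1 / 8)
    (hpair : PairPos (ι ⊕ κ) f1 f2 δ) {a : S → ι → ℝ} {b : S → κ → ℝ}
    (ha : ∀ s, dot (a s) (a s) = 1) (hb : ∀ s, dot (b s) (b s) = 1) :
    ConcaveOn ℝ (Icc 0 1) (phi W f a b) := by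
  set D := dcov a b with hD
  have hsym : ∀ u v, D u v = D v u := fun u v => by
    simp only [hD, dcov, dot, mul_comm]
  have hdiag : ∀ v, D v v = 0 := fun v => by simp [hD, dcov, ha, hb]
  have hcont : ContinuousOn (phi W f a b) (Icc 0 1) := by
    obtain ⟨hc, C, hC⟩ := Bd_logden hP hW
    refine (continuous_of_dominated (bound := fun _ => C)
      (fun t => (hc.comp (continuous_field a b t)).aestronglyMeasurable)
      (fun t => Filter.Eventually.of_forall fun g => by simpa using hC _) (integrable_const _)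
      (Filter.Eventually.of_forall fun g => hc.comp (continuous_field' a b g))).continuousOn
  have hd1 : ∀ t ∈ interior (Icc (0:ℝ) 1), HasDerivWithinAt (phi W f a b)
      (∫ g, QQ W f f1 D (field a b t g) ∂gauss (ι ⊕ κ)) (interior (Icc (0:ℝ) 1)) t := by
    intro t ht
    rw [interior_Icc] at ht
    refine HasDerivAt.hasDerivWithinAt ?_
    refine (interp a b (Bd_logden hP hW) (Der_logden hP hW) (Bd_rr hP hW) (Der_rr hP hW)
      (Bd_L2 hP hW) ht.1 ht.2).congr_deriv ?_
    simp only [← integral_const_mul]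
    rw [← Finset.sum_congr rfl fun v _ => integral_finsetSum _ fun u _ =>
        (integrable_Bd a b (Bd_L2 hP hW v u) t).const_mul _,
      ← integral_finsetSum _ fun v _ => integrable_finsetSum _ fun u _ =>
        (integrable_Bd a b (Bd_L2 hP hW v u) t).const_mul _, ← integral_const_mul]
    exact integral_congr_ae (Filter.Eventually.of_forall fun g => first_sum hdiag hsym)
  refine concaveOn_of_hasDerivWithinAt2_nonpos (convex_Icc 0 1) hcont hd1
    (f'' := fun t => 1 / 2 * ∑ v, ∑ u, D u v *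
      ∫ g, Q2 W f f1 f2 f3 D (field a b t g) v u ∂gauss (ι ⊕ κ)) (fun t ht => ?_) (fun t ht => ?_)
  · rw [interior_Icc] at ht
    exact ((interp a b ((Bd.const (-(1 / 2))).mul (Bd_rDr (D := D) hP hW)) (Der_QQ hP hW hsym)
      (Bd_Q1 hP hW) (Der_Q1 hP hW hsym) (Bd_Q2 hP hW) ht.1 ht.2)).hasDerivWithinAt
  · rw [interior_Icc] at ht
    refine mul_nonpos_of_nonneg_of_nonpos (by norm_num) ?_
    set c := cvec a b t
    have hc1 : ∀ s, dot (c s) (c s) = 1 := by
      intro s
      calc dot (c s) (c s) = t * dot (a s) (a s) + (1 - t) * dot (b s) (b s) := by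
            simp only [c, cvec, dot, Fintype.sum_sum_type, Sum.elim_inl, Sum.elim_inr, Finset.mul_sum]
            exact congrArg₂ _
              (Finset.sum_congr rfl fun i _ => by
                linear_combination (a s i * a s i) * Real.mul_self_sqrt ht.1.le)
              (Finset.sum_congr rfl fun i _ => by
                linear_combination (b s i * b s i) * Real.mul_self_sqrt (show 0 ≤ 1 - t by linarith [ht.2]))
        _ = 1 := by rw [ha, hb]; ring
    have hint : ∀ v u, Integrable (fun g => D v u ^ 2 * (W u * W v / (∑ s, W s) ^ 2) *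
        (48 * δ ^ 3 - cf f1 f2 (field a b t g u) * cf f1 f2 (field a b t g v))) (gauss (ι ⊕ κ)) :=
      fun v u => integrable_Bd a b ((Bd.const _).mul ((Bd.const _).sub
        ((Bd_cf hP hW u).mul (Bd_cf hP hW v)))) t
    calc ∑ v, ∑ u, D u v * ∫ g, Q2 W f f1 f2 f3 D (field a b t g) v u ∂gauss (ι ⊕ κ)
        = ∫ g, ∑ v, ∑ u, D u v * Q2 W f f1 f2 f3 D (field a b t g) v u ∂gauss (ι ⊕ κ) := by
          rw [integral_finsetSum _ fun v _ => integrable_finsetSum _ fun u _ =>
            (integrable_Bd a b (Bd_Q2 hP hW v u) t).const_mul _]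
          refine Finset.sum_congr rfl fun v _ => ?_
          rw [integral_finsetSum _ fun u _ => (integrable_Bd a b (Bd_Q2 hP hW v u) t).const_mul _]
          simp only [integral_const_mul]
      _ ≤ ∫ g, ∑ v, ∑ u, D v u ^ 2 * (W u * W v / (∑ s, W s) ^ 2) *
          (48 * δ ^ 3 - cf f1 f2 (field a b t g u) * cf f1 f2 (field a b t g v)) ∂gauss (ι ⊕ κ) := by
          refine integral_mono (integrable_finsetSum _ fun v _ => integrable_finsetSum _ fun u _ =>
            (integrable_Bd a b (Bd_Q2 hP hW v u) t).const_mul _)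
            (integrable_finsetSum _ fun v _ => integrable_finsetSum _ fun u _ => hint v u) fun g => ?_
          simp only [second_sum hdiag hsym]
          exact pointwise hP hW hδ D _
      _ ≤ 0 := by
          rw [integral_finsetSum _ fun v _ => integrable_finsetSum _ fun u _ => hint v u]
          refine Finset.sum_nonpos fun v _ => ?_
          rw [integral_finsetSum _ fun u _ => hint v u]
          refine Finset.sum_nonpos fun u _ => ?_
          rw [integral_const_mul, integral_sub (integrable_const _)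
            (integrable_Bd a b ((Bd_cf hP hW u).mul (Bd_cf hP hW v)) t)]
          refine mul_nonpos_of_nonneg_of_nonpos ?_ ?_
          · exact mul_nonneg (sq_nonneg _) (div_nonneg (mul_pos (hW u) (hW v)).le (sq_nonneg _))
          · have := hpair (c u) (c v) (hc1 u) (hc1 v)
            simp only [integral_const, probReal_univ, one_smul]
            exact sub_nonpos.2 this

lemma phi_step (hP : Pot f f1 f2 f3 δ) (hW : ∀ s, 0 < W s) (hδ : δ ≤ 1 / 8)
    (hpair : PairPos (ι ⊕ κ) f1 f2 δ) {a : S → ι → ℝ} {b : S → κ → ℝ}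
    (ha : ∀ s, dot (a s) (a s) = 1) (hb : ∀ s, dot (b s) (b s) = 1) {t : ℝ} (h0 : 0 ≤ t) (h1 : t ≤ 1) :
    t * phi W f a b 1 + (1 - t) * phi W f a b 0 ≤ phi W f a b t := by
  have := (phi_concave hP hW hδ hpair ha hb).2 (right_mem_Icc.2 zero_le_one)
    (left_mem_Icc.2 zero_le_one) h0 (show 0 ≤ 1 - t by linarith) (by ring)
  simpa using this

end Vale.Agent.P157.Lim
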