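import Vale.Agent.P157.Pair
import Vale.Agent.P157.Lim.Concave

/-! A lower bound, uniform in the correlation, for Gaussian two-point functions. -/

open MeasureTheory ProbabilityTheory Real
open scoped RealInnerProductSpace ENNReal
open Vale.Agent.P150 (gauss dot)

namespace Vale.Agent.P157.Lim

variable {ι : Type*} [Fintype ι]

/-- `(E U(G))² - E [((U(G) - U(-G))/2)²]` -/
noncomputable def kap (U : ℝ → ℝ) : ℝ :=
  (∫ x, U x ∂γ) ^ 2 - ∫ x, ((U x - U (-x)) / 2) ^ 2 ∂γ

lemma integral_pair_gauss {U : ℝ → ℝ} (hU : Continuous U) (u v : ι → ℝ) (hu : dot u u = 1)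
    (hv : dot v v = 1) :
    ∫ g, U (dot u g) * U (dot v g) ∂gauss ι = pairFun U (dot u v) := by
  set L := LinearIsometryEquiv.piLpCongrLeft 2 ℝ ℝ (Fintype.equivFin ι)
  have hdot : ∀ x y : ι → ℝ,
      ⟪L (WithLp.toLp 2 x), L (WithLp.toLp 2 y)⟫ = dot x y := by
    intro x y
    rw [L.inner_map_map]
    simp only [PiLp.inner_apply, RCLike.inner_apply, conj_trivial, dot]
    exact Finset.sum_congr rfl fun i _ => mul_comm _ _
  have hnorm : ∀ x : ι → ℝ, dot x x = 1 → ‖L (WithLp.toLp 2 x)‖ = 1 := by
    intro x hx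
    rw [norm_eq_sqrt_real_inner, hdot, hx, Real.sqrt_one]
  have hm : (gauss ι).map (fun g => L (WithLp.toLp 2 g)) = stdGaussian (Vec (Fintype.card ι)) := by
    have e : (fun g : ι → ℝ => L (WithLp.toLp 2 g)) = ⇑L ∘ WithLp.toLp 2 := rfl
    rw [e, ← Measure.map_map L.continuous.measurable (by fun_prop), gauss, map_pi_eq_stdGaussian,
      stdGaussian_map]
  rw [← hdot u v, ← integral_pair_stdGaussian hU.measurable _ _ (hnorm u hu) (hnorm v hv), ← hm,
    integral_map (φ := fun g : ι → ℝ => L (WithLp.toLp 2 g))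
      (L.continuous.comp (by fun_prop : Continuous (WithLp.toLp 2 (V := ι → ℝ)))).aemeasurable
      (Continuous.aestronglyMeasurable (by fun_prop))]
  refine integral_congr_ae (Filter.Eventually.of_forall fun g => ?_)
  simp only [hdot]
  simp only [dot, mul_comm]

/-- three coordinates -/
def three (p : ℝ × ℝ × ℝ) : Unit ⊕ Unit ⊕ Unit → ℝ :=
  Sum.elim (fun _ => p.1) (Sum.elim (fun _ => p.2.1) fun _ => p.2.2)

lemma map_three : (γ.prod (γ.prod γ)).map three = gauss (Unit ⊕ Unit ⊕ Unit) := by
  have hm : Measurable three := by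
    refine measurable_pi_lambda _ fun k => ?_
    rcases k with _ | _ | _ <;> simp only [three, Sum.elim_inl, Sum.elim_inr] <;> fun_prop
  refine (Measure.pi_eq fun s hs => ?_).symm
  rw [Measure.map_apply hm (MeasurableSet.univ_pi hs)]
  have e : three ⁻¹' Set.univ.pi s =
      s (.inl ()) ×ˢ (s (.inr (.inl ())) ×ˢ s (.inr (.inr ()))) := by
    ext p
    simp only [three, Set.mem_preimage, Set.mem_univ_pi, Set.mem_prod, Sum.forall, Sum.elim_inl, Sum.elim_inr,
      Unique.forall_iff, PUnit.default_eq_unit]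
  rw [e, Measure.prod_prod, Measure.prod_prod]
  simp [Fintype.prod_sum_type]

variable {U : ℝ → ℝ} {C : ℝ}

lemma pairFun_ge (hU : Continuous U) (hC : ∀ x, |U x| ≤ C) {q : ℝ} (hq : |q| ≤ 1) :
    kap U ≤ pairFun U q := by
  set s := √|q| with hs
  set σ := √(1 - |q|) with hσ
  obtain ⟨sg, hsg, hqs⟩ : ∃ sg : ℝ, (sg = 1 ∨ sg = -1) ∧ q = sg * |q| := by
    rcases le_total 0 q with h | h
    · exact ⟨1, Or.inl rfl, by rw [abs_of_nonneg h, one_mul]⟩
    · exact ⟨-1, Or.inr rfl, by rw [abs_of_nonpos h]; ring⟩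
  have hss : s * s = |q| := Real.mul_self_sqrt (abs_nonneg q)
  have hσσ : σ * σ = 1 - |q| := Real.mul_self_sqrt (by linarith)
  have hsgsg : sg * sg = 1 := by rcases hsg with rfl | rfl <;> norm_num
  set u : Unit ⊕ Unit ⊕ Unit → ℝ := three (s, σ, 0) with hu'
  set v : Unit ⊕ Unit ⊕ Unit → ℝ := three (sg * s, 0, σ) with hv'
  have hu : dot u u = 1 := by simp [u, dot, three, hss, hσσ]
  have hv : dot v v = 1 := by
    simp [v, dot, three, hσσ]
    linear_combination (s * s) * hsgsg + hss
  have huv : dot u v = q := by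
    simp [u, v, dot, three]
    linear_combination sg * hss - hqs
  have hUi : ∀ {α : Type} [MeasurableSpace α] {ν : Measure α} [IsFiniteMeasure ν] {ψ : α → ℝ},
      Measurable ψ → Integrable (fun x => U (ψ x)) ν := fun hψ =>
    integrable_bdd (hU.measurable.comp hψ) fun x => hC _
  set G : ℝ → ℝ := fun w => ∫ y, U (s * w + σ * y) ∂γ with hG
  have e0 : pairFun U q = ∫ w, G w * G (sg * w) ∂γ := by
    rw [← huv, ← integral_pair_gauss hU u v hu hv, ← map_three,
      integral_map (by
        refine (measurable_pi_lambda _ fun k => ?_).aemeasurable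
        rcases k with _ | _ | _ <;> simp only [three, Sum.elim_inl, Sum.elim_inr] <;> fun_prop)
        (Continuous.aestronglyMeasurable (by unfold dot; fun_prop))]
    have e : ∀ p : ℝ × ℝ × ℝ, U (dot u (three p)) * U (dot v (three p)) =
        U (s * p.1 + σ * p.2.1) * U (s * (sg * p.1) + σ * p.2.2) := fun p => by
      simp [u, v, dot, three]; ring_nf; tauto
    simp only [e]
    have hi : Integrable (fun p : ℝ × ℝ × ℝ =>
        U (s * p.1 + σ * p.2.1) * U (s * (sg * p.1) + σ * p.2.2)) (γ.prod (γ.prod γ)) :=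
      integrable_bdd (Continuous.measurable (by fun_prop)) (C := C * C) fun p => by
        rw [abs_mul]; exact mul_le_mul (hC _) (hC _) (abs_nonneg _) ((abs_nonneg _).trans (hC 0))
    rw [integral_prod _ hi]
    refine integral_congr_ae (Filter.Eventually.of_forall fun w => ?_)
    exact integral_prod_mul (fun y => U (s * w + σ * y)) (fun y => U (s * (sg * w) + σ * y))
  have hGc : Continuous G := continuous_of_dominated (bound := fun _ => C)
    (fun w => (Continuous.aestronglyMeasurable (by fun_prop)))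
    (fun w => Filter.Eventually.of_forall fun y => by simpa using hC _) (integrable_const _)
    (Filter.Eventually.of_forall fun y => by fun_prop)
  have hGb : ∀ w, |G w| ≤ C := fun w => abs_integral_le_of_abs_le fun y => hC _
  have hGi : ∀ {ψ : ℝ → ℝ}, Measurable ψ → Integrable (fun x => G (ψ x)) γ := fun hψ =>
    integrable_bdd (hGc.measurable.comp hψ) fun x => hGb _
  have hGG : ∀ {ψ : ℝ → ℝ}, Continuous ψ → Integrable (fun x => G x * G (ψ x)) γ := fun hψ =>
    integrable_bdd (Continuous.measurable (by fun_prop)) (C := C * C) fun x => by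
      rw [abs_mul]; exact mul_le_mul (hGb _) (hGb _) (abs_nonneg _) ((abs_nonneg _).trans (hC 0))
  have hσ' : σ = √(1 - s ^ 2) := by rw [sq, hss]
  have hs1 : s ^ 2 ≤ 1 := by rw [sq, hss]; exact hq
  have mix : ∀ {V : ℝ → ℝ}, Continuous V → (∀ x, |V x| ≤ (2 * C) ^ 2 + |C|) →
      ∫ w, (∫ y, V (s * w + σ * y) ∂γ) ∂γ = ∫ x, V x ∂γ := by
    intro V hV hVb
    rw [← integral_prod (fun p : ℝ × ℝ => V (s * p.1 + σ * p.2))
      (integrable_bdd (Continuous.measurable (by fun_prop)) fun p => hVb _)]
    conv_rhs => rw [← map_second s hs1]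
    rw [integral_map (by fun_prop) hV.aestronglyMeasurable, hσ']
  have hneg : γ.map (fun x : ℝ => -x) = γ := by
    rw [gaussianReal_map_neg, neg_zero]
  have hflip : ∀ {V : ℝ → ℝ}, Continuous V → ∫ x, V (-x) ∂γ = ∫ x, V x ∂γ := fun hV => by
    conv_rhs => rw [← hneg]
    rw [integral_map (by fun_prop) hV.aestronglyMeasurable]
  set m := ∫ x, U x ∂γ with hmdef
  have hm : ∫ w, G w ∂γ = m :=
    mix hU fun x => (hC x).trans (le_add_of_nonneg_of_le (sq_nonneg _) (le_abs_self C))
  set d : ℝ → ℝ := fun x => ((U x - U (-x)) / 2) ^ 2 with hd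
  have hdc : Continuous d := by fun_prop
  have hdb : ∀ x, |d x| ≤ C ^ 2 := fun x => by
    rw [hd]; dsimp only
    rw [abs_of_nonneg (sq_nonneg _), ← sq_abs]
    refine pow_le_pow_left₀ (abs_nonneg _) ?_ 2
    have h1 := abs_le.1 (hC x); have h2 := abs_le.1 (hC (-x))
    rw [abs_le]; constructor <;> linarith
  have hd0 : 0 ≤ ∫ x, d x ∂γ := integral_nonneg fun x => sq_nonneg _
  have hk : kap U = m ^ 2 - ∫ x, d x ∂γ := rfl
  have var : ∀ {X : ℝ → ℝ}, Continuous X → (∀ x, |X x| ≤ C) →
      (∫ x, X x ∂γ) ^ 2 ≤ ∫ x, X x ^ 2 ∂γ := by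
    intro X hX hXb
    have i1 : Integrable X γ := integrable_bdd hX.measurable hXb
    have i2 : Integrable (fun x => X x ^ 2) γ :=
      integrable_bdd (hX.pow 2).measurable (C := C ^ 2) fun x => by
        rw [abs_pow]; exact pow_le_pow_left₀ (abs_nonneg _) (hXb x) 2
    set μ0 := ∫ x, X x ∂γ
    have : 0 ≤ ∫ x, (X x - μ0) ^ 2 ∂γ := integral_nonneg fun x => sq_nonneg _
    have e : ∀ x, (X x - μ0) ^ 2 = X x ^ 2 - (2 * μ0 * X x - μ0 ^ 2) := fun x => by ring
    simp only [e] at this
    have i4 : Integrable (fun x => 2 * μ0 * X x - μ0 ^ 2) γ := (i1.const_mul _).sub (integrable_const _)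
    rw [integral_sub i2 i4, integral_sub (i1.const_mul _) (integrable_const _), integral_const_mul] at this
    simp only [integral_const, probReal_univ, one_smul] at this
    nlinarith
  rw [e0, hk]
  rcases hsg with rfl | rfl
  · simp only [one_mul, ← sq]
    have := var hGc hGb
    rw [hm] at this
    linarith
  · simp only [neg_mul, one_mul]
    have hGn : Continuous fun w => G (-w) := by fun_prop
    have sq1 : m ^ 2 ≤ ∫ w, ((G w + G (-w)) / 2) ^ 2 ∂γ := by
      have := var (X := fun w => (G w + G (-w)) / 2) (by fun_prop) fun w => by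
        have h1 := abs_le.1 (hGb w); have h2 := abs_le.1 (hGb (-w))
        rw [abs_le]; constructor <;> linarith
      rwa [integral_div, integral_add (integrable_bdd hGc.measurable hGb) (hGi measurable_neg), hflip hGc, hm,
        show (m + m) / 2 = m by ring] at this
    have sq2 : ∫ w, ((G w - G (-w)) / 2) ^ 2 ∂γ ≤ ∫ x, d x ∂γ := by
      rw [← mix hdc fun x => (hdb x).trans (le_add_of_le_of_nonneg
        (by nlinarith [sq_nonneg C]) (abs_nonneg _))]
      have hinner : Continuous fun w => ∫ y, d (s * w + σ * y) ∂γ :=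
        continuous_of_dominated (bound := fun _ => C ^ 2)
          (fun w => (Continuous.aestronglyMeasurable (by fun_prop)))
          (fun w => Filter.Eventually.of_forall fun y => by simpa using hdb _) (integrable_const _)
          (Filter.Eventually.of_forall fun y => by fun_prop)
      refine integral_mono (integrable_bdd (Continuous.measurable (by fun_prop)) (C := C ^ 2) fun w => ?_)
        (integrable_bdd hinner.measurable fun w => abs_integral_le_of_abs_le fun y => hdb _) fun w => ?_
      · rw [abs_of_nonneg (sq_nonneg _), ← sq_abs]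
        refine pow_le_pow_left₀ (abs_nonneg _) ?_ 2
        have h1 := abs_le.1 (hGb w); have h2 := abs_le.1 (hGb (-w))
        rw [abs_le]; constructor <;> linarith
      · have hX : Continuous fun y => (U (s * w + σ * y) - U (-(s * w + σ * y))) / 2 := by fun_prop
        have := var hX fun y => by
          have h1 := abs_le.1 (hC (s * w + σ * y)); have h2 := abs_le.1 (hC (-(s * w + σ * y)))
          rw [abs_le]; constructor <;> linarith
        have eG : G (-w) = ∫ y, U (-(s * w + σ * y)) ∂γ := by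
          rw [hG, ← hflip (V := fun y => U (-(s * w + σ * y))) (by fun_prop)]
          exact integral_congr_ae (Filter.Eventually.of_forall fun y => by ring_nf)
        rw [integral_div, integral_sub (hUi (by fun_prop)) (hUi (by fun_prop)), ← eG] at this
        exact this
    have i1 : Integrable (fun w => ((G w + G (-w)) / 2) ^ 2) γ :=
      integrable_bdd (Continuous.measurable (by fun_prop)) (C := C ^ 2) fun w => by
        rw [abs_pow]; refine pow_le_pow_left₀ (abs_nonneg _) ?_ 2
        have h1 := abs_le.1 (hGb w); have h2 := abs_le.1 (hGb (-w))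
        rw [abs_le]; constructor <;> linarith
    have i2 : Integrable (fun w => ((G w - G (-w)) / 2) ^ 2) γ :=
      integrable_bdd (Continuous.measurable (by fun_prop)) (C := C ^ 2) fun w => by
        rw [abs_pow]; refine pow_le_pow_left₀ (abs_nonneg _) ?_ 2
        have h1 := abs_le.1 (hGb w); have h2 := abs_le.1 (hGb (-w))
        rw [abs_le]; constructor <;> linarith
    have e : ∀ w, G w * G (-w) = ((G w + G (-w)) / 2) ^ 2 - ((G w - G (-w)) / 2) ^ 2 := fun w => by ring
    simp only [e]
    rw [integral_sub i1 i2]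
    linarith

lemma pairPos_scaled {h h1 h2 h3 : ℝ → ℝ} {ε B : ℝ}
    (hP : Pot (fun x => ε * h x) (fun x => ε * h1 x) (fun x => ε * h2 x) (fun x => ε * h3 x) (|ε| * B))
    (hk : 51 * (|ε| * B) ^ 3 ≤ ε ^ 2 * kap h2) (hB : ∀ x, |h2 x| ≤ B)
    (hc2 : Continuous h2) :
    PairPos ι (fun x => ε * h1 x) (fun x => ε * h2 x) (|ε| * B) := by
  intro u v hu hv
  set δ := |ε| * B
  have hδ : 0 ≤ δ := (abs_nonneg _).trans (hP.b0 0)
  have hc1 : Continuous fun x => ε * h1 x := continuous_iff_continuousAt.2 fun x => (hP.d1 x).continuousAt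
  have hq : |dot u v| ≤ 1 := by
    have cs : dot u v ^ 2 ≤ 1 := by
      have := Finset.sum_mul_sq_le_sq_mul_sq Finset.univ u v
      simp only [sq (u _), sq (v _)] at this
      unfold dot at hu hv ⊢
      rw [hu, hv, one_mul] at this
      exact this
    exact (sq_le_one_iff_abs_le_one _).1 cs
  have hpair : ε ^ 2 * kap h2 ≤ ε ^ 2 * ∫ g, h2 (dot u g) * h2 (dot v g) ∂gauss ι := by
    rw [integral_pair_gauss hc2 u v hu hv]
    exact mul_le_mul_of_nonneg_left (pairFun_ge hc2 hB hq) (sq_nonneg ε)
  have hlow : ∀ x y, ε ^ 2 * (h2 x * h2 y) - 3 * δ ^ 3 ≤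
      cf (fun x => ε * h1 x) (fun x => ε * h2 x) x * cf (fun x => ε * h1 x) (fun x => ε * h2 x) y := by
    intro x y
    have a1 := hP.b1 x; have a2 := hP.b1 y; have b1 := hP.b2 x; have b2 := hP.b2 y
    simp only [cf]
    have t1 : |ε * h1 x * (ε * h1 x) * (ε * h2 y)| ≤ δ * δ * δ := by
      rw [abs_mul, abs_mul (ε * h1 x)]; gcongr
    have t2 : |ε * h2 x * (ε * h1 y * (ε * h1 y))| ≤ δ * (δ * δ) := by
      rw [abs_mul, abs_mul (ε * h1 y)]; gcongr
    have t3 : 0 ≤ ε * h1 x * (ε * h1 x) * (ε * h1 y * (ε * h1 y)) :=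
      mul_nonneg (mul_self_nonneg _) (mul_self_nonneg _)
    have := (abs_le.1 t1).1; have := (abs_le.1 t2).1
    nlinarith [pow_nonneg hδ 3]
  have hb : ∀ x, |cf (fun x => ε * h1 x) (fun x => ε * h2 x) x| ≤ δ * δ + δ := fun x => by
    refine (abs_add_le _ _).trans (add_le_add ?_ (hP.b2 x))
    rw [abs_mul]; exact mul_le_mul (hP.b1 x) (hP.b1 x) (abs_nonneg _) hδ
  have hc : Continuous (cf (fun x => ε * h1 x) (fun x => ε * h2 x)) := by unfold cf; fun_prop
  have hd : Continuous fun g : ι → ℝ => dot u g := by unfold dot; fun_prop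
  have hd' : Continuous fun g : ι → ℝ => dot v g := by unfold dot; fun_prop
  have ih : Integrable (fun g => h2 (dot u g) * h2 (dot v g)) (gauss ι) :=
    integrable_bdd (Continuous.measurable (by fun_prop)) (C := B * B) fun g => by
      rw [abs_mul]; exact mul_le_mul (hB _) (hB _) (abs_nonneg _) ((abs_nonneg _).trans (hB 0))
  have := integral_mono (μ := gauss ι)
    (f := fun g => ε ^ 2 * (h2 (dot u g) * h2 (dot v g)) - 3 * δ ^ 3)
    ((ih.const_mul _).sub (integrable_const _))
    (integrable_bdd (Continuous.measurable (by fun_prop)) (C := (δ * δ + δ) * (δ * δ + δ)) fun g => by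
      rw [abs_mul]; exact mul_le_mul (hb _) (hb _) (abs_nonneg _) (by positivity))
    fun g => hlow (dot u g) (dot v g)
  rw [integral_sub (ih.const_mul _) (integrable_const _), integral_const_mul] at this
  simp only [integral_const, probReal_univ, one_smul] at this
  linarith

end Vale.Agent.P157.Lim
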