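import Vale.Agent.P157.Lim.Split
import Vale.Agent.P157.Lim.Two
import Vale.Agent.P157.Lim.Subadd
import Vale.Agent.P157.Overlap

/-! Approximate superadditivity in `N` and the existence of the limit. -/

open MeasureTheory ProbabilityTheory Set Filter
open scoped RealInnerProductSpace ENNReal Topology
open Vale.Agent.P150 (gauss dot)

namespace Vale.Agent.P157.Lim

set_option linter.unusedSectionVars false

variable {S S' ι ι' κ : Type*} [Fintype S] [Fintype S'] [Fintype ι] [Fintype ι'] [Fintype κ]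
variable {f : ℝ → ℝ} {δ : ℝ}

/-- `±1` from a Boolean -/
def sgn (b : Bool) : ℝ := if b then 1 else -1

/-- scaled configuration -/
noncomputable def xv (N : ℕ) (σ : Fin N → Bool) : Fin N → ℝ := fun i => sgn (σ i) / √(N:ℝ)

/-- uniform weight on configurations -/
noncomputable def wt (N : ℕ) (_σ : Fin N → Bool) : ℝ := (1 / 2) ^ N

/-- `E log Z` for `M` patterns on the cube of dimension `N` -/
noncomputable def free (f : ℝ → ℝ) (N M : ℕ) : ℝ := (avg f (xv N))^[M] (lse (wt N)) 0

lemma dot_xv {N : ℕ} (hN : 0 < N) (σ : Fin N → Bool) : dot (xv N σ) (xv N σ) = 1 := by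
  have : (0:ℝ) < N := by exact_mod_cast hN
  have e : ∀ i, xv N σ i * xv N σ i = 1 / N := fun i => by
    rw [xv, div_mul_div_comm, Real.mul_self_sqrt (Nat.cast_nonneg N)]
    simp only [sgn]; split_ifs <;> norm_num
  simp only [dot, e, Finset.sum_const, Finset.card_univ, Fintype.card_fin, nsmul_eq_mul]
  field_simp

lemma free_superadd {f1 f2 f3 : ℝ → ℝ} (hP : Pot f f1 f2 f3 δ) (hδ : δ ≤ 1 / 8)
    (hpair : ∀ N₁ N₂ : ℕ, PairPos (Fin N₁ ⊕ Fin N₂) f1 f2 δ) {α : ℝ} (hα : 0 < α) {N₁ N₂ : ℕ}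
    (h1 : 1 ≤ N₁) (h2 : 1 ≤ N₂) :
    free f N₁ ⌊α * N₁⌋₊ + free f N₂ ⌊α * N₂⌋₊ - δ * (α + 4) * √((N₁:ℝ) + N₂) ≤
      free f (N₁ + N₂) ⌊α * (N₁ + N₂ : ℕ)⌋₊ := by
  have hf : Continuous f := continuous_iff_continuousAt.2 fun x => (hP.d0 x).continuousAt
  have hb := hP.b0
  have hδ0 : 0 ≤ δ := delta_nonneg hf hb
  set N := (N₁:ℝ) + N₂ with hNdef
  have n1 : (1:ℝ) ≤ N₁ := by exact_mod_cast h1
  have n2 : (1:ℝ) ≤ N₂ := by exact_mod_cast h2
  have hN : 0 < N := by linarith
  set θ := (N₁:ℝ) / N with hθ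
  have h0 : 0 ≤ θ := by positivity
  have hθ1 : θ ≤ 1 := by rw [hθ, div_le_one hN]; linarith
  set M := ⌊α * (N₁ + N₂ : ℕ)⌋₊
  set a := fun s : (Fin N₁ → Bool) × (Fin N₂ → Bool) => xv N₁ s.1
  set b := fun s : (Fin N₁ → Bool) × (Fin N₂ → Bool) => xv N₂ s.2
  set W := fun s : (Fin N₁ → Bool) × (Fin N₂ → Bool) => wt N₁ s.1 * wt N₂ s.2
  have hW : ∀ s, 0 < W s := fun s => by simp only [W, wt]; positivity
  have e1 : free f (N₁ + N₂) M = (avg f (cvec a b θ))^[M] (lse W) 0 := by
    rw [free, iterate_transfer hf hb finSumFinEquiv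
      ((Equiv.sumArrowEquivProdArrow (Fin N₁) (Fin N₂) Bool).symm.trans
        (Equiv.arrowCongr finSumFinEquiv (Equiv.refl Bool))) (x := cvec a b θ) (W := W) ?_ hW ?_]
    · rfl
    · intro s k
      have sN : √((N₁ + N₂ : ℕ) : ℝ) = √N := by push_cast; rfl
      simp only [xv, sN, Equiv.trans_apply, Equiv.arrowCongr_apply, Function.comp,
        Equiv.symm_apply_apply, Equiv.coe_refl, id]
      rcases k with i | i
      · simp only [cvec, a, xv, Sum.elim_inl, Equiv.sumArrowEquivProdArrow, Equiv.coe_fn_symm_mk]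
        rw [hθ, Real.sqrt_div (Nat.cast_nonneg _)]
        have : √(N₁:ℝ) ≠ 0 := (Real.sqrt_pos.2 (by linarith)).ne'
        field_simp
      · simp only [cvec, b, xv, Sum.elim_inr, Equiv.sumArrowEquivProdArrow, Equiv.coe_fn_symm_mk]
        rw [show 1 - θ = N₂ / N by rw [hθ]; field_simp; ring, Real.sqrt_div (Nat.cast_nonneg _)]
        have : √(N₂:ℝ) ≠ 0 := (Real.sqrt_pos.2 (by linarith)).ne'
        field_simp
    · intro s; simp only [W, wt]; rw [pow_add]
  rw [e1]
  set m₁ := ⌊α * N₁⌋₊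
  set m₂ := ⌊α * N₂⌋₊
  set r := √N
  have hr : 0 < r := Real.sqrt_pos.2 hN
  refine le_trans ?_ (penalty hP hδ (hpair N₁ N₂) (fun _ => by unfold wt; positivity)
    (fun _ => by unfold wt; positivity) (dot_xv h1) (dot_xv h2) h0 hθ1 M m₁ m₂ hr)
  unfold free
  have eN : ((N₁ + N₂ : ℕ) : ℝ) = N := by push_cast; rfl
  have hM : (M:ℝ) ≤ α * N :=
    (Nat.floor_le (show 0 ≤ α * ((N₁ + N₂ : ℕ) : ℝ) by positivity)).trans_eq (by rw [eN])
  have hM' : α * N < M + 1 := by
    rw [← eN]; exact Nat.lt_floor_add_one _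
  have am : (m₁:ℝ) ≤ α * N₁ := Nat.floor_le (by positivity)
  have am' : α * N₁ < m₁ + 1 := Nat.lt_floor_add_one _
  have bm : (m₂:ℝ) ≤ α * N₂ := Nat.floor_le (by positivity)
  have bm' : α * N₂ < m₂ + 1 := Nat.lt_floor_add_one _
  have t1 : θ * (α * N) = α * N₁ := by rw [hθ]; field_simp
  have t2 : (1 - θ) * (α * N) = α * N₂ := by rw [hθ]; field_simp; ring
  have d1 : (θ * M - m₁) ^ 2 ≤ 1 := by
    have u1 := mul_le_mul_of_nonneg_left hM h0
    have u2 := mul_le_mul_of_nonneg_left hM'.le h0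
    exact (sq_le_one_iff_abs_le_one _).2 (abs_le.2 ⟨by linarith, by linarith⟩)
  have d2 : ((1 - θ) * M - m₂) ^ 2 ≤ 1 := by
    have u1 := mul_le_mul_of_nonneg_left hM (show 0 ≤ 1 - θ by linarith)
    have u2 := mul_le_mul_of_nonneg_left hM'.le (show 0 ≤ 1 - θ by linarith)
    exact (sq_le_one_iff_abs_le_one _).2 (abs_le.2 ⟨by linarith, by linarith⟩)
  have d3 : (M:ℝ) * θ * (1 - θ) ≤ α * N := by
    have h' : θ * (1 - θ) ≤ 1 := by nlinarith
    have := mul_le_mul_of_nonneg_left h' (Nat.cast_nonneg (α := ℝ) M)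
    linarith [mul_one (M:ℝ), mul_assoc (M:ℝ) θ (1 - θ)]
  have hrr : r * r = N := Real.mul_self_sqrt hN.le
  have key : δ / (2 * r) * (2 * (α * N + 1)) ≤ δ * (α + 1) * r := by
    rw [div_mul_eq_mul_div, div_le_iff₀ (by positivity)]
    calc δ * (2 * (α * N + 1)) ≤ δ * (2 * (α * N + N)) := by
          refine mul_le_mul_of_nonneg_left ?_ hδ0; linarith
      _ = δ * (α + 1) * r * (2 * r) := by rw [← hrr]; ring
  have c0 : 0 ≤ δ / (2 * r) := by positivity
  have k2 := mul_le_mul_of_nonneg_left (show (M:ℝ) * θ * (1 - θ) + (θ * M - m₁) ^ 2 +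
    ((M:ℝ) * θ * (1 - θ) + ((1 - θ) * M - m₂) ^ 2) ≤ 2 * (α * N + 1) by linarith) c0
  have k3 : 0 ≤ δ * r := mul_nonneg hδ0 hr.le
  linarith

lemma free_limit {f1 f2 f3 : ℝ → ℝ} (hP : Pot f f1 f2 f3 δ) (hδ : δ ≤ 1 / 8)
    (hpair : ∀ N₁ N₂ : ℕ, PairPos (Fin N₁ ⊕ Fin N₂) f1 f2 δ) {α : ℝ} (hα : 0 < α) :
    ∃ l, Tendsto (fun N : ℕ => free f N ⌊α * N⌋₊ / N) atTop (𝓝 l) := by
  have hf : Continuous f := continuous_iff_continuousAt.2 fun x => (hP.d0 x).continuousAt
  have hb := hP.b0
  have hδ0 : 0 ≤ δ := delta_nonneg hf hb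
  obtain ⟨l, hl⟩ := tendsto_div_of_almost_subadd (u := fun N => -free f N ⌊α * N⌋₊)
    (C := δ * (α + 4)) (L := -(δ * α)) (by positivity) (fun m n hm hn => by
      have := free_superadd hP hδ hpair hα hm hn
      linarith) (fun n hn => by
      have hn0 : (0:ℝ) < n := by exact_mod_cast hn
      rw [le_div_iff₀ hn0]
      have h := (abs_le.1 (abs_iterate_sub hf hb (good_lse (W := wt n) fun _ => by unfold wt; positivity)
        (xv n) 0 ⌊α * (n:ℝ)⌋₊ 0)).2
      have z : lse (wt n) 0 = 0 := by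
        simp [lse, wt]
      rw [Function.iterate_zero_apply, z, Nat.cast_zero, sub_zero, sub_zero, Nat.abs_cast] at h
      have := mul_le_mul_of_nonneg_left (Nat.floor_le (show 0 ≤ α * (n:ℝ) by positivity)) hδ0
      simp only [free]
      linarith)
  refine ⟨-l, hl.neg.congr fun N => ?_⟩
  rw [neg_div, neg_neg]

/-- the law of a finite family of independent patterns, in coordinates -/
lemma pressure_eq_free {N : ℕ} (hf : Continuous f) (hb : ∀ x, |f x| ≤ δ) (M : ℕ) :
    pressure (isingUniform N) f M = free f N M / N := by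
  -- the cube measure as a finite average
  have hpart : ∀ g : Fin M → Fin N → ℝ,
      partition (isingUniform N) f (fun a => WithLp.toLp 2 (g a)) =
        ∑ σ, wt N σ * Real.exp (∑ a, f (dot (xv N σ) (g a))) := by
    intro g
    set ν : Measure Bool := (2 : ℝ≥0∞)⁻¹ • Measure.count with hν
    have hmapν : ν.map sgn = (2 : ℝ≥0∞)⁻¹ • (Measure.dirac (-1 : ℝ) + Measure.dirac 1) := by
      have : (Measure.count : Measure Bool) = Measure.dirac false + Measure.dirac true := by
        ext s hs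
        cases' Bool.dichotomy true with h h
        all_goals
          rw [Measure.count, Measure.sum_apply _ hs, tsum_fintype, Fintype.sum_bool,
            Measure.add_apply, add_comm]
      rw [hν, this, Measure.map_smul, Measure.map_add _ _ (measurable_of_finite _),
        Measure.map_dirac' (measurable_of_finite _), Measure.map_dirac' (measurable_of_finite _)]
      simp [sgn]
    have hfin : IsFiniteMeasure ν := ⟨by simp [hν, ENNReal.mul_lt_top_iff]⟩
    have hiso : isingUniform N = (Measure.pi fun _ : Fin N => ν).map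
        (fun σ => WithLp.toLp 2 (fun i => sgn (σ i))) := by
      rw [isingUniform, ← hmapν, ← Measure.pi_map_pi (fun _ => (measurable_of_finite _).aemeasurable),
        Measure.map_map (by fun_prop) (measurable_of_finite _)]
      rfl
    rw [partition, hiso, integral_map (measurable_of_finite _).aemeasurable
      (Continuous.aestronglyMeasurable (by fun_prop)), integral_fintype (Integrable.of_finite)]
    refine Finset.sum_congr rfl fun σ _ => ?_
    congr 1
    · simp [wt, measureReal_def, Measure.pi_singleton, hν]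
    · refine congrArg Real.exp (Finset.sum_congr rfl fun a _ => congrArg f ?_)
      simp only [PiLp.inner_apply, RCLike.inner_apply, conj_trivial, dot, xv, Finset.sum_div]
      exact Finset.sum_congr rfl fun i _ => by ring
  have hiter := iterate_eq_integral hf hb (W := wt N) (fun _ => by unfold wt; positivity) (xv N)
  have hpat : patterns N M = (Measure.pi fun _ : Fin M => gauss (Fin N)).map
      (fun g a => WithLp.toLp 2 (g a)) := by
    rw [Measure.pi_map_pi (f := fun _ => WithLp.toLp 2) (fun _ => Measurable.aemeasurable (by fun_prop))]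
    simp only [patterns, gauss, map_pi_eq_stdGaussian]
  rw [pressure, hpat, integral_map (Measurable.aemeasurable (by fun_prop)) ?_, free, hiter,
    one_div_mul_eq_div]
  · congr 1
    refine integral_congr_ae (Eventually.of_forall fun g => ?_)
    simp only [hpart, lse, Pi.zero_apply, zero_add, Finset.sum_apply, inc, Pi.add_apply]
  · refine Measurable.aestronglyMeasurable ?_
    have := (carried_ising N).prob
    exact Real.measurable_log.comp (measurable_partition hf.measurable)

end Vale.Agent.P157.Lim
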