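import Vale.Agent.P157.Overlap
import Vale.Agent.P150.GaussCalc

/-! The direction and the length of a Gaussian vector are independent, and the relative squared
length of a block concentrates. -/

open MeasureTheory ProbabilityTheory Set Filter
open scoped RealInnerProductSpace ENNReal Topology
open Vale.Agent.P150 (gauss dot)

namespace Vale.Agent.P157.Lim

/-- Gaussian weight -/
noncomputable def wgt {n : ℕ} (x : Vec n) : ℝ := Real.exp (-‖x‖ ^ 2 / 2)

/-- total Gaussian weight -/
noncomputable def tot (n : ℕ) : ℝ := ∫ x : Vec n, wgt x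

lemma cexp_wgt {n : ℕ} (x : Vec n) (c : ℂ) (w : Vec n) :
    Complex.exp (-((1/2 : ℂ)) * (‖x‖:ℂ) ^ 2 + c * (⟪w, x⟫ : ℝ)) =
      ((wgt x : ℝ) : ℂ) * Complex.exp (c * (⟪w, x⟫ : ℝ)) := by
  rw [Complex.exp_add, wgt, Complex.ofReal_exp]
  congr 2; push_cast; ring

lemma integrable_wgt (n : ℕ) : Integrable (wgt : Vec n → ℝ) := by
  have h := (GaussianFourier.integrable_cexp_neg_mul_sq_norm_add (b := (1/2 : ℂ)) (by norm_num)
    0 (0 : Vec n)).norm
  refine h.congr (Eventually.of_forall fun x => ?_)
  dsimp only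
  rw [cexp_wgt, zero_mul, Complex.exp_zero, mul_one, Complex.norm_real, Real.norm_eq_abs,
    abs_of_pos (show 0 < wgt x from Real.exp_pos _)]

lemma tot_eq (n : ℕ) : ((tot n : ℝ) : ℂ) = ((Real.pi : ℂ) / (1/2)) ^ ((n : ℂ) / 2) := by
  have h := GaussianFourier.integral_cexp_neg_mul_sq_norm_add (V := Vec n) (b := (1/2 : ℂ)) (by norm_num) 0 0
  rw [integral_congr_ae (Eventually.of_forall fun x => cexp_wgt x 0 0)] at h
  simp only [zero_mul, Complex.exp_zero, mul_one] at h
  rw [tot, ← integral_complex_ofReal, h]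
  simp

lemma tot_pos (n : ℕ) : 0 < tot n := by
  rw [tot, integral_pos_iff_support_of_nonneg (f := (wgt : Vec n → ℝ)) (fun x => (Real.exp_pos _).le) (integrable_wgt n),
    show Function.support (wgt : Vec n → ℝ) = univ from Set.eq_univ_of_forall fun x => (Real.exp_pos _).ne']
  exact Measure.measure_univ_pos.2 (NeZero.ne _)

lemma stdGaussian_eq_withDensity (n : ℕ) :
    stdGaussian (Vec n) = (volume : Measure (Vec n)).withDensity
      (fun x => ENNReal.ofReal (wgt x / tot n)) := by
  set ν := (volume : Measure (Vec n)).withDensity (fun x => ENNReal.ofReal (wgt x / tot n))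
  have : IsFiniteMeasure ν := isFiniteMeasure_withDensity_ofReal ((integrable_wgt n).div_const _).2
  apply Measure.ext_of_charFun
  ext t
  rw [charFun_stdGaussian, charFun_apply, integral_withDensity_eq_integral_toReal_smul
    (by unfold wgt; fun_prop) (Eventually.of_forall fun x => ENNReal.ofReal_lt_top)]
  have h := GaussianFourier.integral_cexp_neg_mul_sq_norm_add (V := Vec n) (b := (1/2 : ℂ)) (by norm_num)
    Complex.I t
  simp only [cexp_wgt, finrank_euclideanSpace_fin, ← tot_eq] at h
  have e : ∀ x : Vec n, (ENNReal.ofReal (wgt x / tot n)).toReal • Complex.exp ((⟪x, t⟫ : ℝ) * Complex.I) =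
      (1 / (tot n : ℂ)) * ((wgt x : ℂ) * Complex.exp (Complex.I * (⟪t, x⟫ : ℝ))) := fun x => by
    rw [ENNReal.toReal_ofReal (by unfold wgt; exact div_nonneg (Real.exp_pos _).le (tot_pos n).le),
      Complex.real_smul, real_inner_comm t x, mul_comm Complex.I]
    push_cast; ring
  simp only [e]
  rw [integral_const_mul, h, Complex.I_sq]
  have : (tot n : ℂ) ≠ 0 := Complex.ofReal_ne_zero.2 (tot_pos n).ne'
  rw [← mul_assoc, one_div_mul_cancel this, one_mul]
  congr 1; ring

/-- direction -/
noncomputable def dirV {n : ℕ} (x : Vec n) : Vec n := ‖x‖⁻¹ • x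

lemma measurable_dirV {n : ℕ} : Measurable (dirV : Vec n → Vec n) := by unfold dirV; fun_prop

lemma dirV_norm_indep (n : ℕ) (hn : 0 < n) :
    (stdGaussian (Vec n)).map (fun x => (dirV x, ‖x‖)) =
      ((stdGaussian (Vec n)).map dirV).prod ((stdGaussian (Vec n)).map fun x => ‖x‖) ∧
    (stdGaussian (Vec n)).map dirV =
      (((volume : Measure (Vec n)).toSphere Set.univ)⁻¹ • (volume : Measure (Vec n)).toSphere).map
        (fun u : Metric.sphere (0 : Vec n) 1 => (u : Vec n)) := by
  have : NeZero n := ⟨hn.ne'⟩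
  have : Nontrivial (Vec n) := Module.nontrivial_of_finrank_pos (R := ℝ) (by simpa using hn)
  set P := stdGaussian (Vec n)
  set T := (volume : Measure (Vec n)).toSphere.real univ
  have hT : 0 < T := ENNReal.toReal_pos
    (fun h => Measure.toSphere_ne_zero _ (Measure.measure_univ_eq_zero.1 h)) (measure_ne_top _ _)
  have hdens : ∀ S : Set (Vec n), MeasurableSet S → P.real S * tot n = ∫ x, S.indicator wgt x := by
    intro S hS
    rw [show P.real S = ∫ x, S.indicator (fun _ => (1:ℝ)) x ∂P by rw [integral_indicator_const _ hS]; simp]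
    simp only [P, stdGaussian_eq_withDensity n]
    rw [integral_withDensity_eq_integral_toReal_smul (by unfold wgt; fun_prop)
      (Eventually.of_forall fun x => ENNReal.ofReal_lt_top), ← integral_mul_const]
    refine integral_congr_ae (Eventually.of_forall fun x => ?_)
    dsimp only
    rw [ENNReal.toReal_ofReal (by unfold wgt; exact div_nonneg (Real.exp_pos _).le (tot_pos n).le)]
    by_cases hx : x ∈ S
    · simp [Set.indicator_of_mem hx, (tot_pos n).ne']
    · simp [Set.indicator_of_notMem hx]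
  have key : ∀ s : Set (Vec n), MeasurableSet s → ∀ t : Set ℝ, MeasurableSet t →
      T * P.real {x | dirV x ∈ s ∧ ‖x‖ ∈ t} =
        (volume : Measure (Vec n)).toSphere.real {u | (u : Vec n) ∈ s} * P.real {x | ‖x‖ ∈ t} := by
    intro s hs t ht
    have hpol := polar_identity (N := n)
      (F := fun u : Metric.sphere (0 : Vec n) 1 => s.indicator (fun _ => (1:ℝ)) (u : Vec n))
      (R := t.indicator fun r => Real.exp (-r ^ 2 / 2))
      (G := {x : Vec n | dirV x ∈ s ∧ ‖x‖ ∈ t}.indicator wgt) fun x hx => by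
        have e : (((homeomorphUnitSphereProd (Vec n) ⟨x, hx⟩).1 : Metric.sphere (0 : Vec n) 1) : Vec n)
            = dirV x := by simp [dirV]
        rw [e]
        by_cases h1 : dirV x ∈ s <;> by_cases h2 : ‖x‖ ∈ t <;> simp [h1, h2, wgt]
    have eR : ∀ x : Vec n, t.indicator (fun r => Real.exp (-r ^ 2 / 2)) ‖x‖ =
        {x : Vec n | ‖x‖ ∈ t}.indicator wgt x := fun x => by
      by_cases h2 : ‖x‖ ∈ t <;> simp [h2, wgt]
    have eF : ∫ u, s.indicator (fun _ => (1:ℝ)) (u : Vec n) ∂(volume : Measure (Vec n)).toSphere =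
        (volume : Measure (Vec n)).toSphere.real {u | (u : Vec n) ∈ s} := by
      have h := integral_indicator_const (μ := (volume : Measure (Vec n)).toSphere) (1:ℝ)
        (s := {u | (u : Vec n) ∈ s}) (measurable_subtype_coe hs)
      rw [smul_eq_mul, mul_one] at h
      rw [← h]; rfl
    simp only [eR, eF] at hpol
    have hA : MeasurableSet {x : Vec n | dirV x ∈ s ∧ ‖x‖ ∈ t} :=
      (measurable_dirV hs).inter ((continuous_norm.measurable) ht)
    rw [← hdens _ hA, ← hdens {x : Vec n | ‖x‖ ∈ t} ((continuous_norm.measurable) ht)] at hpol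
    exact mul_right_cancel₀ (tot_pos n).ne' (by linear_combination hpol)
  have hdir : ∀ s : Set (Vec n), MeasurableSet s →
      T * P.real (dirV ⁻¹' s) = (volume : Measure (Vec n)).toSphere.real {u | (u : Vec n) ∈ s} := by
    intro s hs
    have h := key s hs univ MeasurableSet.univ
    simp only [mem_univ, and_true, Set.ofPred_true, probReal_univ, mul_one] at h
    exact h
  constructor
  · have : IsProbabilityMeasure (P.map dirV) := Measure.isProbabilityMeasure_map measurable_dirV.aemeasurable
    have : IsProbabilityMeasure (P.map fun x => ‖x‖) := Measure.isProbabilityMeasure_map (by fun_prop)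
    refine (Measure.prod_eq fun s t hs ht => ?_).symm
    rw [Measure.map_apply (measurable_dirV.prodMk continuous_norm.measurable) (hs.prod ht),
      Measure.map_apply measurable_dirV hs, Measure.map_apply continuous_norm.measurable ht,
      ← ENNReal.toReal_eq_toReal_iff' (measure_ne_top _ _)
        (ENNReal.mul_ne_top (measure_ne_top _ _) (measure_ne_top _ _)), ENNReal.toReal_mul]
    refine mul_left_cancel₀ hT.ne' ?_
    have h1 := key s hs t ht
    have h2 := hdir s hs
    simp only [measureReal_def] at h1 h2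
    rw [← mul_assoc, h2]
    exact h1
  · refine Measure.ext fun s hs => ?_
    rw [Measure.map_apply measurable_dirV hs, Measure.map_apply measurable_subtype_coe hs,
      Measure.smul_apply, smul_eq_mul]
    refine (ENNReal.toReal_eq_toReal_iff' (measure_ne_top _ _)
      (ENNReal.mul_ne_top (ENNReal.inv_ne_top.2 fun h => Measure.toSphere_ne_zero _
        (Measure.measure_univ_eq_zero.1 h)) (measure_ne_top _ _))).1 ?_
    rw [ENNReal.toReal_mul, ENNReal.toReal_inv]
    have h2 := hdir s hs
    simp only [measureReal_def, T] at h2 hT ⊢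
    rw [eq_inv_mul_iff_mul_eq₀ hT.ne']
    exact h2

/-- direction in coordinates -/
noncomputable def nd {ι : Type} [Fintype ι] (z : ι → ℝ) : ι → ℝ := (√(dot z z))⁻¹ • z

/-- law of the direction -/
noncomputable def dirLaw (ι : Type) [Fintype ι] : Measure (ι → ℝ) := (gauss ι).map nd

/-- law of the length -/
noncomputable def radLaw (ι : Type) [Fintype ι] : Measure ℝ := (gauss ι).map fun z => √(dot z z)

variable {ι κ : Type} [Fintype ι] [Fintype κ]

lemma measurable_nd : Measurable (nd : (ι → ℝ) → ι → ℝ) := by unfold nd dot; fun_prop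

lemma measurable_rad : Measurable fun z : ι → ℝ => √(dot z z) := by unfold dot; fun_prop

instance : IsProbabilityMeasure (dirLaw ι) := Measure.isProbabilityMeasure_map measurable_nd.aemeasurable

instance : IsProbabilityMeasure (radLaw ι) := Measure.isProbabilityMeasure_map measurable_rad.aemeasurable

lemma norm_toLp {n : ℕ} (z : Fin n → ℝ) : ‖(WithLp.toLp 2 z : Vec n)‖ = √(dot z z) := by
  rw [EuclideanSpace.norm_eq]; simp [dot, sq]

lemma dirV_toLp {n : ℕ} (z : Fin n → ℝ) : dirV (WithLp.toLp 2 z : Vec n) = WithLp.toLp 2 (nd z) := by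
  simp [dirV, nd, norm_toLp]

lemma gauss_toLp (n : ℕ) : (gauss (Fin n)).map (WithLp.toLp 2) = stdGaussian (Vec n) :=
  map_pi_eq_stdGaussian

lemma dirLaw_indep (n : ℕ) (hn : 0 < n) :
    (gauss (Fin n)).map (fun z => (nd z, √(dot z z))) = (dirLaw (Fin n)).prod (radLaw (Fin n)) := by
  have h := (dirV_norm_indep n hn).1
  rw [← gauss_toLp, Measure.map_map (measurable_dirV.prodMk continuous_norm.measurable) (by fun_prop),
    Measure.map_map measurable_dirV (by fun_prop), Measure.map_map continuous_norm.measurable (by fun_prop)] at h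
  have e1 : dirV ∘ WithLp.toLp 2 = (WithLp.toLp 2) ∘ (nd : (Fin n → ℝ) → Fin n → ℝ) := funext dirV_toLp
  have e2 : (fun x : Vec n => ‖x‖) ∘ WithLp.toLp 2 = fun z : Fin n → ℝ => √(dot z z) := funext norm_toLp
  have e3 : (fun x : Vec n => (dirV x, ‖x‖)) ∘ WithLp.toLp 2 =
      (Prod.map (WithLp.toLp 2) id) ∘ fun z : Fin n → ℝ => (nd z, √(dot z z)) :=
    funext fun z => by simp [dirV_toLp, norm_toLp]
  rw [e1, e2, e3, ← Measure.map_map (by fun_prop) measurable_nd,
    ← Measure.map_map (by fun_prop) (measurable_nd.prodMk measurable_rad)] at h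
  have hinv : ∀ μ : Measure ((Fin n → ℝ) × ℝ),
      (μ.map (Prod.map (WithLp.toLp 2) id)).map (Prod.map (WithLp.ofLp (p := 2)) id) = μ := fun μ => by
    rw [Measure.map_map (by fun_prop) (by fun_prop)]
    exact Measure.map_id
  have h' := congrArg (fun μ => Measure.map (Prod.map (WithLp.ofLp (p := 2)) id) μ) h
  simp only [hinv] at h'
  rw [h', ← Measure.map_prod_map _ _ (by fun_prop) measurable_id, Measure.map_id,
    Measure.map_map (by fun_prop) (by fun_prop)]
  simp [dirLaw, radLaw, Function.comp_def]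

lemma dirLaw_unit [Nonempty ι] : ∀ᵐ x ∂dirLaw ι, dot x x = 1 := by
  rw [dirLaw]
  refine (ae_map_iff measurable_nd.aemeasurable
    (measurableSet_eq_fun (by unfold dot; fun_prop) measurable_const)).2 ?_
  obtain ⟨k⟩ := (inferInstance : Nonempty ι)
  have := nullSingletonClass_gaussianReal (μ := 0) one_ne_zero
  have h0 : ∀ᵐ s ∂gaussianReal 0 1, s ≠ 0 := ae_iff.2 (by simp)
  filter_upwards [(measurePreserving_eval (fun _ : ι => gaussianReal 0 1) k).quasiMeasurePreserving.ae h0]
    with z hz
  have hp : 0 < dot z z := lt_of_lt_of_le (mul_self_pos.2 hz)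
    (Finset.single_le_sum (f := fun i => z i * z i) (fun i _ => mul_self_nonneg _) (Finset.mem_univ k))
  have hs : 0 < √(dot z z) := Real.sqrt_pos.2 hp
  have e : dot (nd z) (nd z) = (√(dot z z))⁻¹ * (√(dot z z))⁻¹ * dot z z := by
    simp only [nd, dot, Pi.smul_apply, smul_eq_mul, Finset.mul_sum]
    exact Finset.sum_congr rfl fun i _ => by ring
  rw [e, ← mul_inv, Real.mul_self_sqrt hp.le, inv_mul_cancel₀ hp.ne']

/-- relative squared length of the first block -/
noncomputable def frac (z : ι ⊕ κ → ℝ) : ℝ :=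
  dot (fun i => z (.inl i)) (fun i => z (.inl i)) /
    (dot (fun i => z (.inl i)) (fun i => z (.inl i)) + dot (fun j => z (.inr j)) (fun j => z (.inr j)))

/-- fourth-moment constant -/
noncomputable def K₂ : ℝ := ∫ t, (t ^ 2 - 1) ^ 2 ∂gaussianReal 0 1

lemma K₂_nonneg : 0 ≤ K₂ := integral_nonneg fun _ => sq_nonneg _

lemma integral_lin_sq (w : ι → ℝ) (hw : ∀ k, |w k| ≤ 1) :
    Integrable (fun z : ι → ℝ => (∑ k, w k * (z k ^ 2 - 1)) ^ 2) (gauss ι) ∧
      ∫ z, (∑ k, w k * (z k ^ 2 - 1)) ^ 2 ∂gauss ι ≤ K₂ * Fintype.card ι := by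
  classical
  have i4 : Integrable (fun t : ℝ => t ^ 4) (gaussianReal 0 1) := by
    have h := (memLp_id_gaussianReal (μ := 0) (v := 1) 4).integrable_norm_pow (p := 4) (by norm_num)
    refine h.congr (Eventually.of_forall fun t => ?_)
    simp only [id, Real.norm_eq_abs]
    rw [← abs_pow, abs_of_nonneg (by positivity)]
  have i2 : Integrable (fun t : ℝ => t ^ 2) (gaussianReal 0 1) :=
    (memLp_id_gaussianReal (μ := 0) (v := 1) 2).integrable_sq
  have iA : Integrable (fun t : ℝ => t ^ 2 - 1) (gaussianReal 0 1) := i2.sub (integrable_const _)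
  have iB : Integrable (fun t : ℝ => (t ^ 2 - 1) ^ 2) (gaussianReal 0 1) :=
    (((i4.sub (i2.const_mul 2)).add (integrable_const 1))).congr
      (Eventually.of_forall fun t => by simp only [Pi.add_apply, Pi.sub_apply]; ring)
  have hA : ∫ t, (t ^ 2 - 1) ∂gaussianReal 0 1 = 0 := by
    rw [integral_sub i2 (integrable_const _)]
    have h2 := P150.stein_one (f := fun x => x) (f' := fun _ => 1) (C := 1) (M := 1)
      (fun x => hasDerivAt_id x) continuous_const
      (fun x => by linarith [Real.add_one_le_exp (1 * |x|), abs_nonneg x])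
      (fun x => by rw [abs_one, one_mul]; exact Real.one_le_exp (by positivity))
    simp [sq, h2]
  have cross : ∀ i j, Integrable (fun z : ι → ℝ => (z i ^ 2 - 1) * (z j ^ 2 - 1)) (gauss ι) ∧
      ∫ z, (z i ^ 2 - 1) * (z j ^ 2 - 1) ∂gauss ι = if i = j then K₂ else 0 := by
    intro i j
    by_cases hij : i = j
    · subst hij
      simp only [if_true, ← sq]
      exact ⟨(measurePreserving_eval (fun _ : ι => gaussianReal 0 1) i).integrable_comp_of_integrable iB,
        integral_comp_eval (μ := fun _ : ι => gaussianReal 0 1) iB.aestronglyMeasurable⟩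
    · rw [if_neg hij]
      set F : ι → ℝ → ℝ := fun k t => if k = i ∨ k = j then t ^ 2 - 1 else 1
      have e : (fun z : ι → ℝ => (z i ^ 2 - 1) * (z j ^ 2 - 1)) = fun z => ∏ k, F k (z k) := by
        funext z
        simp only [F, Finset.prod_ite, Finset.prod_const_one, mul_one]
        rw [show (Finset.univ.filter fun k => k = i ∨ k = j) = {i, j} by ext k; simp,
          Finset.prod_pair hij]
      rw [e]
      refine ⟨Integrable.fintype_prod fun k => ?_, ?_⟩
      · simp only [F]; split_ifs
        · exact iA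
        · exact integrable_const _
      · rw [show gauss ι = Measure.pi (fun _ => gaussianReal 0 1) from rfl, integral_fintype_prod_eq_prod F]
        refine Finset.prod_eq_zero (Finset.mem_univ i) ?_
        simp [F, hA]
  have e : (fun z : ι → ℝ => (∑ k, w k * (z k ^ 2 - 1)) ^ 2) =
      fun z => ∑ i, ∑ j, w i * w j * ((z i ^ 2 - 1) * (z j ^ 2 - 1)) := by
    funext z; rw [sq, Finset.sum_mul_sum]
    exact Finset.sum_congr rfl fun i _ => Finset.sum_congr rfl fun j _ => by ring
  rw [e]
  refine ⟨integrable_finsetSum _ fun i _ => integrable_finsetSum _ fun j _ => (cross i j).1.const_mul _, ?_⟩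
  rw [integral_finsetSum _ fun i _ => integrable_finsetSum _ fun j _ => (cross i j).1.const_mul _]
  calc _ = ∑ i, w i * w i * K₂ := Finset.sum_congr rfl fun i _ => by
          rw [integral_finsetSum _ fun j _ => (cross i j).1.const_mul _]
          simp [integral_const_mul, fun j => (cross i j).2]
    _ ≤ ∑ _i : ι, K₂ := Finset.sum_le_sum fun i _ =>
          mul_le_of_le_one_left K₂_nonneg (by rw [← sq, sq_le_one_iff_abs_le_one]; exact hw i)
    _ = K₂ * Fintype.card ι := by simp [mul_comm]

lemma measurable_frac : Measurable (frac : (ι ⊕ κ → ℝ) → ℝ) := by unfold frac dot; fun_prop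

lemma frac_mem (z : ι ⊕ κ → ℝ) : frac z ∈ Icc (0:ℝ) 1 := by
  have a : 0 ≤ dot (fun i => z (.inl i)) (fun i => z (.inl i)) := Finset.sum_nonneg fun i _ => mul_self_nonneg _
  have b : 0 ≤ dot (fun j => z (.inr j)) (fun j => z (.inr j)) := Finset.sum_nonneg fun i _ => mul_self_nonneg _
  exact ⟨div_nonneg a (by linarith), div_le_one_of_le₀ (by linarith) (by linarith)⟩

lemma frac_dev (hn : 0 < (Fintype.card ι : ℝ) + Fintype.card κ) :
    ∫ z, (frac z - (Fintype.card ι : ℝ) / (Fintype.card ι + Fintype.card κ)) ^ 2 ∂gauss (ι ⊕ κ) ≤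
      8 * K₂ / (Fintype.card ι + Fintype.card κ) := by
  set N := (Fintype.card ι : ℝ) + Fintype.card κ
  set θ := (Fintype.card ι : ℝ) / N with hθ
  have h0 : 0 ≤ θ := by positivity
  have h1 : θ ≤ 1 := by rw [hθ, div_le_one hn]; simp [N]
  set w : ι ⊕ κ → ℝ := Sum.elim (fun _ => 1 - θ) (fun _ => -θ) with hw
  have hw1 : ∀ k, |w k| ≤ 1 := by
    rintro (i | j) <;> simp only [hw, Sum.elim_inl, Sum.elim_inr, abs_le] <;> constructor <;> linarith
  obtain ⟨ia, ba⟩ := integral_lin_sq w hw1
  obtain ⟨ib, bb⟩ := integral_lin_sq (fun _ : ι ⊕ κ => (1:ℝ)) (by simp)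
  have hpt : ∀ z : ι ⊕ κ → ℝ, (frac z - θ) ^ 2 ≤
      4 / N ^ 2 * ((∑ k, w k * (z k ^ 2 - 1)) ^ 2 + (∑ k, (1:ℝ) * (z k ^ 2 - 1)) ^ 2) := by
    intro z
    set A := dot (fun i => z (.inl i)) (fun i => z (.inl i)) with hA
    set B := dot (fun j => z (.inr j)) (fun j => z (.inr j)) with hB
    have eA : ∑ i, z (.inl i) ^ 2 = A := by simp [hA, dot, sq]
    have eB : ∑ j, z (.inr j) ^ 2 = B := by simp [hB, dot, sq]
    have e1 : ∑ k, w k * (z k ^ 2 - 1) = (1 - θ) * A - θ * B := by
      simp only [Fintype.sum_sum_type, hw, Sum.elim_inl, Sum.elim_inr, mul_sub, mul_one,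
        Finset.sum_sub_distrib, ← Finset.mul_sum, eA, eB, Finset.sum_const, Finset.card_univ, nsmul_eq_mul]
      rw [hθ]; field_simp; simp only [N]; ring
    have e2 : ∑ k, (1:ℝ) * (z k ^ 2 - 1) = A + B - N := by
      simp only [Fintype.sum_sum_type, one_mul, Finset.sum_sub_distrib, eA, eB, Finset.sum_const,
        Finset.card_univ, Fintype.card_sum, Nat.cast_add, nsmul_eq_mul, mul_one, N]
    rw [e1, e2, div_mul_eq_mul_div, le_div_iff₀ (by positivity)]
    rcases le_or_gt (N / 2) (A + B) with hc | hc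
    · have hAB : 0 < A + B := by linarith
      have hd : (frac z - θ) * (A + B) = (1 - θ) * A - θ * B := by
        show (A / (A + B) - θ) * (A + B) = _
        field_simp; ring
      have h2 : (frac z - θ) ^ 2 * (N / 2) ^ 2 ≤ ((1 - θ) * A - θ * B) ^ 2 := by
        rw [← hd, mul_pow]
        exact mul_le_mul_of_nonneg_left (pow_le_pow_left₀ (by positivity) hc 2) (sq_nonneg _)
      nlinarith [sq_nonneg (A + B - N)]
    · have hm := frac_mem z
      have h2 : (frac z - θ) ^ 2 ≤ 1 := by
        rw [sq_le_one_iff_abs_le_one, abs_le]; constructor <;> linarith [hm.1, hm.2]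
      have h3 := mul_le_mul_of_nonneg_right h2 (sq_nonneg N)
      nlinarith [sq_nonneg ((1 - θ) * A - θ * B)]
  have hfr : Integrable (fun z => (frac z - θ) ^ 2) (gauss (ι ⊕ κ)) :=
    Integrable.of_bound ((measurable_frac.sub measurable_const).pow_const 2).aestronglyMeasurable 1
      (Eventually.of_forall fun z => by
        have hm := frac_mem z
        rw [Real.norm_eq_abs, abs_pow]
        refine pow_le_one₀ (abs_nonneg _) (abs_le.2 ?_)
        constructor <;> linarith [hm.1, hm.2])
  refine (integral_mono hfr ((ia.add ib).const_mul _) hpt).trans ?_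
  rw [integral_const_mul, integral_add' ia ib]
  have hc : (Fintype.card (ι ⊕ κ) : ℝ) = N := by simp [N]
  rw [hc] at ba bb
  calc 4 / N ^ 2 * (_ + _) ≤ 4 / N ^ 2 * (K₂ * N + K₂ * N) :=
        mul_le_mul_of_nonneg_left (add_le_add ba bb) (by positivity)
    _ = 8 * K₂ / N := by field_simp; ring

end Vale.Agent.P157.Lim
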