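import Vale.Agent.P157.Lim.Approx
import Vale.Agent.P157.Lim.Radial
import Vale.Agent.P157.Lim.Subadd

/-! Approximate superadditivity on the sphere. -/

open MeasureTheory ProbabilityTheory Set Filter
open scoped RealInnerProductSpace ENNReal Topology
open Vale.Agent.P150 (gauss dot)

namespace Vale.Agent.P157.Lim

set_option linter.unusedSectionVars false

variable {f : ℝ → ℝ} {δ : ℝ}

lemma abs_freeM {ι : Type} [Fintype ι] (hf : Continuous f) (hb : ∀ x, |f x| ≤ δ) (ν : Measure (ι → ℝ))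
    [IsProbabilityMeasure ν] (M : ℕ) : |freeM f ν M| ≤ M * δ :=
  Vale.Agent.P157.abs_integral_le_of_abs_le fun g => abs_logZ hf hb g

lemma freeM_reindex {ι ι' : Type} [Fintype ι] [Fintype ι'] (hf : Continuous f) (hb : ∀ x, |f x| ≤ δ)
    (e : ι ≃ ι') (M : ℕ) : freeM f (dirLaw ι') M = freeM f (dirLaw ι) M := by
  have hre : (gauss ι').map (fun z k => z (e k)) = gauss ι := map_reindex e
  have hpi : (Measure.pi fun _ : Fin M => gauss ι').map (fun g a k => g a (e k)) =
      Measure.pi fun _ : Fin M => gauss ι := by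
    rw [Measure.pi_map_pi (f := fun _ (z : ι' → ℝ) k => z (e k)) (fun _ => Measurable.aemeasurable (by fun_prop))]
    simp only [hre]
  have hdot : ∀ x y : ι' → ℝ, dot (fun k => x (e k)) (fun k => y (e k)) = dot x y := fun x y =>
    e.sum_comp fun k => x k * y k
  have hν : dirLaw ι = (dirLaw ι').map (fun z k => z (e k)) := by
    rw [dirLaw, dirLaw, Measure.map_map (by fun_prop) measurable_nd, ← hre,
      Measure.map_map measurable_nd (by fun_prop)]
    congr 1; funext z k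
    simp only [Function.comp, nd, Pi.smul_apply, hdot]
  have hm := measurable_logZ hf hb (ν := dirLaw ι) (M := M)
  show _ = ∫ g, logZ f (dirLaw ι) g ∂Measure.pi (fun _ : Fin M => gauss ι)
  rw [← hpi, integral_map (Measurable.aemeasurable (by fun_prop)) hm.aestronglyMeasurable, freeM]
  refine integral_congr_ae (Eventually.of_forall fun g => ?_)
  simp only [logZ]
  rw [hν, integral_map (Measurable.aemeasurable (by fun_prop)) (continuous_energy_right hf hb _).rexp.aestronglyMeasurable]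
  simp only [energy, hdot]

/-- relative squared length from the two lengths -/
noncomputable def ratio (r : ℝ × ℝ) : ℝ := r.1 ^ 2 / (r.1 ^ 2 + r.2 ^ 2)

lemma ratio_mem (r : ℝ × ℝ) : ratio r ∈ Icc (0:ℝ) 1 :=
  ⟨by unfold ratio; positivity, div_le_one_of_le₀ (by nlinarith [sq_nonneg r.2]) (by positivity)⟩

lemma measurable_ratio : Measurable ratio := by unfold ratio; fun_prop

variable (N₁ N₂ : ℕ)

lemma radial_map : ((radLaw (Fin N₁)).prod (radLaw (Fin N₂))).map ratio =
    (gauss (Fin N₁ ⊕ Fin N₂)).map frac := by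
  have hsum : MeasurePreserving (fun z : Fin N₁ ⊕ Fin N₂ → ℝ => (fun i => z (.inl i), fun j => z (.inr j)))
      (gauss (Fin N₁ ⊕ Fin N₂)) ((gauss (Fin N₁)).prod (gauss (Fin N₂))) :=
    measurePreserving_sumPiEquivProdPi (X := fun _ : Fin N₁ ⊕ Fin N₂ => ℝ) fun _ => gaussianReal 0 1
  rw [radLaw, radLaw, Measure.map_prod_map _ _ measurable_rad measurable_rad, ← hsum.map_eq,
    Measure.map_map measurable_ratio (measurable_rad.prodMap measurable_rad),
    Measure.map_map (measurable_ratio.comp (measurable_rad.prodMap measurable_rad)) hsum.measurable]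
  congr 1; funext z
  simp only [Function.comp, Prod.map, ratio, frac]
  rw [Real.sq_sqrt (show 0 ≤ dot _ _ from Finset.sum_nonneg fun i _ => mul_self_nonneg (z (.inl i))),
    Real.sq_sqrt (show 0 ≤ dot _ _ from Finset.sum_nonneg fun i _ => mul_self_nonneg (z (.inr i)))]

lemma polar_split (h1 : 0 < N₁) (h2 : 0 < N₂) :
    (((radLaw (Fin N₁)).prod (radLaw (Fin N₂))).prod ((dirLaw (Fin N₁)).prod (dirLaw (Fin N₂)))).map
        (fun q : (ℝ × ℝ) × ((Fin N₁ → ℝ) × (Fin N₂ → ℝ)) => cv (ratio q.1) q.2) =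
      dirLaw (Fin N₁ ⊕ Fin N₂) := by
  set ρ₁ := radLaw (Fin N₁)
  set ρ₂ := radLaw (Fin N₂)
  set ν₁ := dirLaw (Fin N₁)
  set ν₂ := dirLaw (Fin N₂)
  have hcv : Measurable fun q : (ℝ × ℝ) × ((Fin N₁ → ℝ) × (Fin N₂ → ℝ)) => cv (ratio q.1) q.2 := by
    refine measurable_pi_lambda _ fun k => ?_
    rcases k with i | j <;> simp only [cv, ratio, Sum.elim_inl, Sum.elim_inr] <;> fun_prop
  -- reorder the four factors
  have hre : MeasurePreserving
      (fun p : ((Fin N₁ → ℝ) × ℝ) × ((Fin N₂ → ℝ) × ℝ) => ((p.1.2, p.2.2), (p.1.1, p.2.1)))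
      ((ν₁.prod ρ₁).prod (ν₂.prod ρ₂)) ((ρ₁.prod ρ₂).prod (ν₁.prod ν₂)) := by
    refine ⟨by fun_prop, Measure.ext_of_lintegral _ fun F hF => ?_⟩
    rw [lintegral_map hF (by fun_prop), lintegral_prod _ (Measurable.aemeasurable (by fun_prop)),
      lintegral_prod _ hF.aemeasurable]
    rw [lintegral_prod _ (Measurable.aemeasurable (Measurable.lintegral_prod_right' (f := fun q :
      ((Fin N₁ → ℝ) × ℝ) × ((Fin N₂ → ℝ) × ℝ) => F ((q.1.2, q.2.2), (q.1.1, q.2.1))) (by fun_prop)))]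
    rw [lintegral_prod _ (Measurable.aemeasurable (Measurable.lintegral_prod_right' hF))]
    have e1 : ∀ (u : Fin N₁ → ℝ) (r : ℝ), ∫⁻ q : (Fin N₂ → ℝ) × ℝ, F ((r, q.2), (u, q.1)) ∂ν₂.prod ρ₂ =
        ∫⁻ s, ∫⁻ v, F ((r, s), (u, v)) ∂ν₂ ∂ρ₂ := fun u r =>
      lintegral_prod_symm _ (Measurable.aemeasurable (by fun_prop))
    have e2 : ∀ r s : ℝ, ∫⁻ p, F ((r, s), p) ∂ν₁.prod ν₂ = ∫⁻ u, ∫⁻ v, F ((r, s), (u, v)) ∂ν₂ ∂ν₁ :=
      fun r s => lintegral_prod _ (Measurable.aemeasurable (by fun_prop))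
    simp only [e1, e2]
    rw [lintegral_lintegral_swap]
    · refine lintegral_congr fun r => ?_
      rw [lintegral_lintegral_swap]
      exact Measurable.aemeasurable (Measurable.lintegral_prod_right' (f := fun q :
        ((Fin N₁ → ℝ) × ℝ) × (Fin N₂ → ℝ) => F ((r, q.1.2), (q.1.1, q.2))) (by fun_prop))
    · exact Measurable.aemeasurable (Measurable.lintegral_prod_right' (f := fun q :
        ((Fin N₁ → ℝ) × ℝ) × ℝ => ∫⁻ v, F ((q.1.2, q.2), (q.1.1, v)) ∂ν₂)
        (Measurable.lintegral_prod_right' (f := fun q : (((Fin N₁ → ℝ) × ℝ) × ℝ) × (Fin N₂ → ℝ) =>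
          F ((q.1.1.2, q.1.2), (q.1.1.1, q.2))) (by fun_prop)))
  have hsum : MeasurePreserving (fun z : Fin N₁ ⊕ Fin N₂ → ℝ => (fun i => z (.inl i), fun j => z (.inr j)))
      (gauss (Fin N₁ ⊕ Fin N₂)) ((gauss (Fin N₁)).prod (gauss (Fin N₂))) :=
    measurePreserving_sumPiEquivProdPi (X := fun _ : Fin N₁ ⊕ Fin N₂ => ℝ) fun _ => gaussianReal 0 1
  rw [← hre.map_eq, Measure.map_map hcv hre.measurable]
  rw [show (ν₁.prod ρ₁).prod (ν₂.prod ρ₂) = ((gauss (Fin N₁)).map fun z => (nd z, √(dot z z))).prod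
    ((gauss (Fin N₂)).map fun z => (nd z, √(dot z z))) by rw [dirLaw_indep N₁ h1, dirLaw_indep N₂ h2],
    Measure.map_prod_map _ _ (measurable_nd.prodMk measurable_rad) (measurable_nd.prodMk measurable_rad),
    ← hsum.map_eq, Measure.map_map ((measurable_nd.prodMk measurable_rad).prodMap
      (measurable_nd.prodMk measurable_rad)) hsum.measurable,
    Measure.map_map (hcv.comp hre.measurable) (((measurable_nd.prodMk measurable_rad).prodMap
      (measurable_nd.prodMk measurable_rad)).comp hsum.measurable), dirLaw]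
  congr 1; funext z k
  set x := fun i => z (Sum.inl i)
  set y := fun j => z (Sum.inr j)
  have hz : dot z z = dot x x + dot y y := Fintype.sum_sum_type _
  have a : 0 ≤ dot x x := Finset.sum_nonneg fun i _ => mul_self_nonneg _
  have b : 0 ≤ dot y y := Finset.sum_nonneg fun i _ => mul_self_nonneg _
  simp only [Function.comp, Prod.map, ratio]
  rcases k with i | j
  · simp only [cv, nd, Sum.elim_inl, Pi.smul_apply, smul_eq_mul, hz]
    rcases a.eq_or_lt with ha | ha
    · have : x i = 0 := mul_self_eq_zero.1 ((Finset.sum_eq_zero_iff_of_nonneg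
        (fun i _ => mul_self_nonneg (x i))).1 ha.symm i (Finset.mem_univ i))
      simp [show z (Sum.inl i) = 0 from this]
    · show √(√(dot x x) ^ 2 / (√(dot x x) ^ 2 + √(dot y y) ^ 2)) * ((√(dot x x))⁻¹ * x i) =
        (√(dot x x + dot y y))⁻¹ * x i
      rw [Real.sq_sqrt a, Real.sq_sqrt b, Real.sqrt_div a]
      have : √(dot x x) ≠ 0 := (Real.sqrt_pos.2 ha).ne'
      field_simp
  · simp only [cv, nd, Sum.elim_inr, Pi.smul_apply, smul_eq_mul, hz]
    rcases b.eq_or_lt with hb' | hb'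
    · have : y j = 0 := mul_self_eq_zero.1 ((Finset.sum_eq_zero_iff_of_nonneg
        (fun i _ => mul_self_nonneg (y i))).1 hb'.symm j (Finset.mem_univ j))
      simp [show z (Sum.inr j) = 0 from this]
    · show √(1 - √(dot x x) ^ 2 / (√(dot x x) ^ 2 + √(dot y y) ^ 2)) * ((√(dot y y))⁻¹ * y j) =
        (√(dot x x + dot y y))⁻¹ * y j
      rw [Real.sq_sqrt a, Real.sq_sqrt b, one_sub_div (by linarith), add_sub_cancel_left, Real.sqrt_div b]
      have : √(dot y y) ≠ 0 := (Real.sqrt_pos.2 hb').ne'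
      field_simp

variable {N₁ N₂}

lemma freeM_superadd {f1 f2 f3 : ℝ → ℝ} (hP : Pot f f1 f2 f3 δ) (hδ : δ ≤ 1 / 8)
    (hpair : ∀ N₁ N₂ : ℕ, PairPos (Fin N₁ ⊕ Fin N₂) f1 f2 δ) {α : ℝ} (hα : 0 < α)
    (h1 : 1 ≤ N₁) (h2 : 1 ≤ N₂) :
    freeM f (dirLaw (Fin N₁)) ⌊α * N₁⌋₊ + freeM f (dirLaw (Fin N₂)) ⌊α * N₂⌋₊
        - δ * (16 * K₂ * α ^ 2 + α + 3) * √((N₁:ℝ) + N₂) ≤
      freeM f (dirLaw (Fin (N₁ + N₂))) ⌊α * (N₁ + N₂ : ℕ)⌋₊ := by
  have hf : Continuous f := continuous_iff_continuousAt.2 fun x => (hP.d0 x).continuousAt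
  have hb := hP.b0
  have hδ0 : 0 ≤ δ := delta_nonneg hf hb
  have : Nonempty (Fin N₁) := ⟨⟨0, h1⟩⟩
  have : Nonempty (Fin N₂) := ⟨⟨0, h2⟩⟩
  set M := ⌊α * (N₁ + N₂ : ℕ)⌋₊
  set m₁ := ⌊α * N₁⌋₊
  set m₂ := ⌊α * N₂⌋₊
  rw [freeM_reindex hf hb finSumFinEquiv M]
  set ν₁ := dirLaw (Fin N₁)
  set ν₂ := dirLaw (Fin N₂)
  set ρ := (radLaw (Fin N₁)).prod (radLaw (Fin N₂))
  set G := Measure.pi fun _ : Fin M => gauss (Fin N₁ ⊕ Fin N₂)
  set V := fun r : ℝ × ℝ => (ν₁.prod ν₂).map (cv (ratio r))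
  have hV : ∀ r, IsProbabilityMeasure (V r) := fun r =>
    Measure.isProbabilityMeasure_map (continuous_cv _).measurable.aemeasurable
  set Z := fun (g : Fin M → Fin N₁ ⊕ Fin N₂ → ℝ) (r : ℝ × ℝ) => ∫ x, Real.exp (energy f g x) ∂V r
  have hcv : Measurable fun q : (ℝ × ℝ) × ((Fin N₁ → ℝ) × (Fin N₂ → ℝ)) => cv (ratio q.1) q.2 := by
    refine measurable_pi_lambda _ fun k => ?_
    rcases k with i | j <;> simp only [cv, ratio, Sum.elim_inl, Sum.elim_inr] <;> fun_prop
  have hZe : ∀ g r, Z g r = ∫ p, Real.exp (energy f g (cv (ratio r) p)) ∂ν₁.prod ν₂ := fun g r =>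
    integral_map (continuous_cv _).measurable.aemeasurable
      (continuous_energy_right hf hb g).rexp.aestronglyMeasurable
  have hZm : Measurable fun q : (Fin M → Fin N₁ ⊕ Fin N₂ → ℝ) × (ℝ × ℝ) => Z q.1 q.2 := by
    simp only [hZe]
    exact (StronglyMeasurable.integral_prod_right' (ν := ν₁.prod ν₂)
      (f := fun q : ((Fin M → Fin N₁ ⊕ Fin N₂ → ℝ) × (ℝ × ℝ)) × ((Fin N₁ → ℝ) × (Fin N₂ → ℝ)) =>
        Real.exp (energy f q.1.1 (cv (ratio q.1.2) q.2)))
      (((continuous_energy hf hb).rexp.measurable.comp ((measurable_fst.comp measurable_fst).prodMk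
        (hcv.comp ((measurable_snd.comp measurable_fst).prodMk measurable_snd)))).stronglyMeasurable)).measurable
  have hlog : ∀ g r, |Real.log (Z g r)| ≤ M * δ := fun g r => abs_logZ hf hb (ν := V r) g
  have hjensen : ∀ g, ∫ r, Real.log (Z g r) ∂ρ ≤ logZ f (dirLaw (Fin N₁ ⊕ Fin N₂)) g := by
    intro g
    refine (Vale.Agent.P157.integral_log_le (ν := ρ) (X := fun r => Z g r)
      (fun r => lt_of_lt_of_le (Real.exp_pos _) (Z_bounds hf hb (ν := V r) g).1)
      (Integrable.of_bound (hZm.comp (measurable_const.prodMk measurable_id)).aestronglyMeasurable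
        (Real.exp (M * δ)) (Eventually.of_forall fun r => by
          obtain ⟨a, b⟩ := Z_bounds hf hb (ν := V r) g
          rw [Real.norm_eq_abs, abs_of_pos (lt_of_lt_of_le (Real.exp_pos _) a)]
          exact b))
      (Integrable.of_bound ((hZm.comp (measurable_const.prodMk measurable_id)).log).aestronglyMeasurable
        (M * δ) (Eventually.of_forall fun r => hlog g r))).trans (le_of_eq ?_)
    simp only [logZ, ← polar_split N₁ N₂ h1 h2, hZe]
    congr 1
    rw [integral_map hcv.aemeasurable (continuous_energy_right hf hb g).rexp.aestronglyMeasurable,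
      integral_prod _ (integrable_exp_energy hf hb hcv g)]
  have hint : Integrable (Function.uncurry fun g r => Real.log (Z g r)) (G.prod ρ) :=
    Integrable.of_bound hZm.log.aestronglyMeasurable (M * δ) (Eventually.of_forall fun q => hlog q.1 q.2)
  have hlow : ∫ r, freeM f (V r) M ∂ρ ≤ freeM f (dirLaw (Fin N₁ ⊕ Fin N₂)) M := by
    refine le_trans (le_of_eq ?_) (integral_mono hint.integral_prod_left (integrable_logZ hf hb) hjensen)
    simp only [Function.uncurry]
    rw [integral_integral_swap hint]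
    rfl
  refine le_trans ?_ hlow
  set N := (N₁:ℝ) + N₂ with hNdef
  have n1 : (1:ℝ) ≤ N₁ := by exact_mod_cast h1
  have n2 : (1:ℝ) ≤ N₂ := by exact_mod_cast h2
  have hN : 0 < N := by linarith
  set θ := (N₁:ℝ) / N with hθ
  have h0 : 0 ≤ θ := by positivity
  have hθ1 : θ ≤ 1 := by rw [hθ, div_le_one hN]; linarith
  set s := √N
  have hs : 0 < s := Real.sqrt_pos.2 hN
  have eN : ((N₁ + N₂ : ℕ) : ℝ) = N := by push_cast; rfl
  have hM : (M:ℝ) ≤ α * N :=
    (Nat.floor_le (show 0 ≤ α * ((N₁ + N₂ : ℕ) : ℝ) by positivity)).trans_eq (by rw [eN])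
  have hM' : α * N < M + 1 := by rw [← eN]; exact Nat.lt_floor_add_one _
  have am : (m₁:ℝ) ≤ α * N₁ := Nat.floor_le (by positivity)
  have am' : α * N₁ < m₁ + 1 := Nat.lt_floor_add_one _
  have bm : (m₂:ℝ) ≤ α * N₂ := Nat.floor_le (by positivity)
  have bm' : α * N₂ < m₂ + 1 := Nat.lt_floor_add_one _
  have t1 : θ * (α * N) = α * N₁ := by rw [hθ]; field_simp
  have t2 : (1 - θ) * (α * N) = α * N₂ := by rw [hθ]; field_simp; ring
  have d1 : (θ * M - m₁) ^ 2 ≤ 1 := by
    have u1 := mul_le_mul_of_nonneg_left hM h0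
    have u2 := mul_le_mul_of_nonneg_left hM'.le h0
    exact (sq_le_one_iff_abs_le_one _).2 (abs_le.2 ⟨by linarith, by linarith⟩)
  have d2 : ((1 - θ) * M - m₂) ^ 2 ≤ 1 := by
    have u1 := mul_le_mul_of_nonneg_left hM (show 0 ≤ 1 - θ by linarith)
    have u2 := mul_le_mul_of_nonneg_left hM'.le (show 0 ≤ 1 - θ by linarith)
    exact (sq_le_one_iff_abs_le_one _).2 (abs_le.2 ⟨by linarith, by linarith⟩)
  set c := δ / (2 * s)
  have hc : 0 ≤ c := by positivity
  set A := freeM f ν₁ m₁ + freeM f ν₂ m₂ - δ * s - c * (2 * M + 4)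
  have hpt : ∀ r, A - c * 4 * (M:ℝ) ^ 2 * (ratio r - θ) ^ 2 ≤ freeM f (V r) M := by
    intro r
    obtain ⟨r0, r1⟩ := ratio_mem r
    refine le_trans ?_ (penalty_measure hP hδ (hpair N₁ N₂) dirLaw_unit dirLaw_unit r0 r1 M m₁ m₂ hs)
    set t := ratio r
    have q1 : (t * M - m₁) ^ 2 ≤ 2 * (M:ℝ) ^ 2 * (t - θ) ^ 2 + 2 := by
      have := sq_nonneg ((t - θ) * M - (θ * M - m₁))
      linarith
    have q2 : ((1 - t) * M - m₂) ^ 2 ≤ 2 * (M:ℝ) ^ 2 * (t - θ) ^ 2 + 2 := by
      have := sq_nonneg ((θ - t) * M - ((1 - θ) * M - m₂))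
      linarith
    have q3 : (M:ℝ) * t * (1 - t) ≤ M := by
      have h' : t * (1 - t) ≤ 1 := by nlinarith
      have := mul_le_mul_of_nonneg_left h' (Nat.cast_nonneg (α := ℝ) M)
      linarith
    have := mul_le_mul_of_nonneg_left (show (M:ℝ) * t * (1 - t) + (t * M - m₁) ^ 2 +
      ((M:ℝ) * t * (1 - t) + ((1 - t) * M - m₂) ^ 2) ≤ 2 * M + 4 + 4 * (M:ℝ) ^ 2 * (t - θ) ^ 2 by linarith) hc
    simp only [A]
    linarith
  have hdev : ∫ r, (ratio r - θ) ^ 2 ∂ρ ≤ 8 * K₂ / N := by
    have e := integral_map (μ := ρ) measurable_ratio.aemeasurable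
      (f := fun t => (t - θ) ^ 2) (Continuous.aestronglyMeasurable (by fun_prop))
    rw [← e, radial_map, integral_map measurable_frac.aemeasurable (Continuous.aestronglyMeasurable (by fun_prop))]
    have := frac_dev (ι := Fin N₁) (κ := Fin N₂) (by simp only [Fintype.card_fin]; exact hN)
    simpa [hθ, hNdef] using this
  have hri : Integrable (fun r => (ratio r - θ) ^ 2) ρ :=
    Integrable.of_bound ((measurable_ratio.sub measurable_const).pow_const 2).aestronglyMeasurable 1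
      (Eventually.of_forall fun r => by
        obtain ⟨r0, r1⟩ := ratio_mem r
        rw [Real.norm_eq_abs, abs_pow]
        refine pow_le_one₀ (abs_nonneg _) (abs_le.2 ?_)
        constructor <;> linarith)
  have hVi : Integrable (fun r => freeM f (V r) M) ρ := hint.integral_prod_right
  refine le_trans ?_ (integral_mono ((integrable_const A).sub (hri.const_mul _)) hVi hpt)
  rw [integral_sub' (integrable_const A) (hri.const_mul _), integral_const_mul, integral_const,
    probReal_univ, one_smul]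
  have k1 : c * 4 * (M:ℝ) ^ 2 * ∫ r, (ratio r - θ) ^ 2 ∂ρ ≤ c * (32 * K₂ * α ^ 2 * N) := by
    calc _ ≤ c * 4 * (α * N) ^ 2 * (8 * K₂ / N) :=
          mul_le_mul (mul_le_mul_of_nonneg_left (pow_le_pow_left₀ (Nat.cast_nonneg M) hM 2) (by positivity))
            hdev (integral_nonneg fun r => sq_nonneg _) (by positivity)
      _ = _ := by field_simp; ring
  have k2 : c * (2 * M + 4 + 32 * K₂ * α ^ 2 * N) ≤ δ * (16 * K₂ * α ^ 2 + α + 2) * s := by
    calc _ ≤ c * ((2 * α + 4 + 32 * K₂ * α ^ 2) * N) := by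
          refine mul_le_mul_of_nonneg_left ?_ hc
          linarith
      _ = _ := by
          have hss : s * s = N := Real.mul_self_sqrt hN.le
          simp only [c]; rw [← hss]; field_simp; ring
  simp only [A]
  linarith

lemma sphere_limit {f1 f2 f3 : ℝ → ℝ} (hP : Pot f f1 f2 f3 δ) (hδ : δ ≤ 1 / 8)
    (hpair : ∀ N₁ N₂ : ℕ, PairPos (Fin N₁ ⊕ Fin N₂) f1 f2 δ) {α : ℝ} (hα : 0 < α) :
    ∃ l, Tendsto (fun N : ℕ => freeM f (dirLaw (Fin N)) ⌊α * N⌋₊ / N) atTop (𝓝 l) := by
  have hf : Continuous f := continuous_iff_continuousAt.2 fun x => (hP.d0 x).continuousAt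
  have hb := hP.b0
  have hδ0 : 0 ≤ δ := delta_nonneg hf hb
  have hK := K₂_nonneg
  obtain ⟨l, hl⟩ := tendsto_div_of_almost_subadd (u := fun N => -freeM f (dirLaw (Fin N)) ⌊α * N⌋₊)
    (C := δ * (16 * K₂ * α ^ 2 + α + 3)) (L := -(δ * α)) (by positivity) (fun m n hm hn => by
      have := freeM_superadd hP hδ hpair hα hm hn
      linarith) (fun n hn => by
      have hn0 : (0:ℝ) < n := by exact_mod_cast hn
      rw [le_div_iff₀ hn0]
      have h := (abs_le.1 (abs_freeM hf hb (dirLaw (Fin n)) ⌊α * (n:ℝ)⌋₊)).2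
      have := mul_le_mul_of_nonneg_left (Nat.floor_le (show 0 ≤ α * (n:ℝ) by positivity)) hδ0
      linarith)
  refine ⟨-l, hl.neg.congr fun N => ?_⟩
  rw [neg_div, neg_neg]

lemma pressure_eq_freeM {N : ℕ} (hN : 0 < N) (hf : Continuous f) (M : ℕ) :
    pressure (sphereUniform N) f M = freeM f (dirLaw (Fin N)) M / N := by
  have hs : √(N:ℝ) ≠ 0 := (Real.sqrt_pos.2 (by exact_mod_cast hN)).ne'
  have hμ : sphereUniform N = (dirLaw (Fin N)).map fun u => √(N:ℝ) • WithLp.toLp 2 u := by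
    have h2 := (dirV_norm_indep N hN).2
    rw [← gauss_toLp, Measure.map_map measurable_dirV (by fun_prop),
      show dirV ∘ WithLp.toLp 2 = WithLp.toLp 2 ∘ (nd : (Fin N → ℝ) → Fin N → ℝ) from funext dirV_toLp,
      ← Measure.map_map (by fun_prop) measurable_nd] at h2
    rw [dirLaw, sphereUniform, show (fun u : Metric.sphere (0 : Vec N) 1 => √(N:ℝ) • (u : Vec N)) =
      (fun x : Vec N => √(N:ℝ) • x) ∘ (fun u : Metric.sphere (0 : Vec N) 1 => (u : Vec N)) from rfl,
      ← Measure.map_map (by fun_prop) measurable_subtype_coe, ← h2, Measure.map_map (by fun_prop) (by fun_prop)]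
    rfl
  have hpat : patterns N M = (Measure.pi fun _ : Fin M => gauss (Fin N)).map
      (fun g a => WithLp.toLp 2 (g a)) := by
    rw [Measure.pi_map_pi (f := fun _ => WithLp.toLp 2) (fun _ => Measurable.aemeasurable (by fun_prop))]
    simp only [patterns, gauss_toLp]
  have := (carried_sphere hN).prob
  rw [pressure, hpat, integral_map (f := fun g => Real.log (partition (sphereUniform N) f g))
    (Measurable.aemeasurable (by fun_prop))
    (measurable_partition hf.measurable).log.aestronglyMeasurable, one_div_mul_eq_div]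
  congr 1
  refine integral_congr_ae (Eventually.of_forall fun g => ?_)
  simp only [logZ, partition, hμ]
  rw [integral_map (Measurable.aemeasurable (by fun_prop)) (Continuous.aestronglyMeasurable (by fun_prop))]
  congr 1
  refine integral_congr_ae (Eventually.of_forall fun u => ?_)
  simp only [energy]
  refine congrArg Real.exp (Finset.sum_congr rfl fun a _ => congrArg f ?_)
  rw [inner_smul_right, mul_div_cancel_left₀ _ hs]
  simp [PiLp.inner_apply, dot, mul_comm]

end Vale.Agent.P157.Lim
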