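import Vale.Agent.P157.Lim.Split

/-! From finite configuration spaces to arbitrary laws on the unit sphere. -/

open MeasureTheory ProbabilityTheory Set Filter
open scoped Topology
open Vale.Agent.P150 (gauss dot l1 abs_le_l1 l1_nonneg integrable_of_bound)

namespace Vale.Agent.P157.Lim

set_option linter.unusedSectionVars false

variable {ι κ : Type} [Fintype ι] [Fintype κ] {f : ℝ → ℝ} {δ : ℝ}

/-- energy of a configuration -/
def energy (f : ℝ → ℝ) {M : ℕ} (g : Fin M → ι → ℝ) (x : ι → ℝ) : ℝ := ∑ a, f (dot x (g a))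

/-- log partition function of a configuration law -/
noncomputable def logZ (f : ℝ → ℝ) (ν : Measure (ι → ℝ)) {M : ℕ} (g : Fin M → ι → ℝ) : ℝ :=
  Real.log (∫ x, Real.exp (energy f g x) ∂ν)

/-- expected log partition function -/
noncomputable def freeM (f : ℝ → ℝ) (ν : Measure (ι → ℝ)) (M : ℕ) : ℝ :=
  ∫ g, logZ f ν g ∂Measure.pi (fun _ : Fin M => gauss ι)

/-- a point of the product space seen in the joint space -/
noncomputable def cv (t : ℝ) (p : (ι → ℝ) × (κ → ℝ)) : ι ⊕ κ → ℝ :=
  Sum.elim (fun i => √t * p.1 i) (fun j => √(1 - t) * p.2 j)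

lemma continuous_cv (t : ℝ) : Continuous (cv t : (ι → ℝ) × (κ → ℝ) → ι ⊕ κ → ℝ) := by
  refine continuous_pi fun k => ?_
  rcases k with i | j <;> simp only [cv, Sum.elim_inl, Sum.elim_inr] <;> fun_prop

variable {M : ℕ} (hf : Continuous f) (hb : ∀ x, |f x| ≤ δ)
include hf hb

lemma continuous_energy : Continuous fun p : (Fin M → ι → ℝ) × (ι → ℝ) => energy f p.1 p.2 := by
  unfold energy dot; fun_prop

lemma continuous_energy_right (g : Fin M → ι → ℝ) : Continuous (energy f g) :=
  (continuous_energy hf hb).comp (continuous_const.prodMk continuous_id)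

lemma abs_energy_le (g : Fin M → ι → ℝ) (x : ι → ℝ) : |energy f g x| ≤ M * δ :=
  (Finset.abs_sum_le_sum_abs _ _).trans ((Finset.sum_le_sum fun a _ => hb _).trans (by simp))

variable {ν : Measure (ι → ℝ)} [IsProbabilityMeasure ν]

lemma integrable_exp_energy {α : Type*} [MeasurableSpace α] {P : Measure α} [IsFiniteMeasure P]
    {X : α → ι → ℝ} (hX : Measurable X) (g : Fin M → ι → ℝ) :
    Integrable (fun w => Real.exp (energy f g (X w))) P :=
  Integrable.of_bound (((continuous_energy_right hf hb g).rexp.measurable.comp hX).aestronglyMeasurable)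
    (Real.exp (M * δ)) (Eventually.of_forall fun w => by
      rw [Real.norm_eq_abs, Real.abs_exp]
      exact Real.exp_le_exp.2 (abs_le.1 (abs_energy_le hf hb g _)).2)

lemma Z_bounds (g : Fin M → ι → ℝ) :
    Real.exp (-(M * δ)) ≤ ∫ x, Real.exp (energy f g x) ∂ν ∧
      ∫ x, Real.exp (energy f g x) ∂ν ≤ Real.exp (M * δ) := by
  have hi := integrable_exp_energy hf hb (P := ν) measurable_id g
  have a := integral_mono (μ := ν) (integrable_const (Real.exp (-(M * δ)))) hi
    fun x => Real.exp_le_exp.2 (abs_le.1 (abs_energy_le hf hb g x)).1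
  have b := integral_mono (μ := ν) hi (integrable_const (Real.exp (M * δ)))
    fun x => Real.exp_le_exp.2 (abs_le.1 (abs_energy_le hf hb g x)).2
  constructor
  · simpa using a
  · simpa using b

lemma abs_logZ (g : Fin M → ι → ℝ) : |logZ f ν g| ≤ M * δ := by
  obtain ⟨a, b⟩ := Z_bounds hf hb (ν := ν) g
  have hp := lt_of_lt_of_le (Real.exp_pos _) a
  exact abs_le.2 ⟨(Real.le_log_iff_exp_le hp).2 a, (Real.log_le_iff_le_exp hp).2 b⟩

lemma measurable_logZ : Measurable (logZ f ν : (Fin M → ι → ℝ) → ℝ) :=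
  Real.measurable_log.comp
    ((continuous_energy hf hb).rexp.stronglyMeasurable.integral_prod_right').measurable

lemma integrable_logZ : Integrable (logZ f ν) (Measure.pi fun _ : Fin M => gauss ι) :=
  Integrable.of_bound (measurable_logZ hf hb).aestronglyMeasurable (M * δ)
    (Eventually.of_forall fun g => by rw [Real.norm_eq_abs]; exact abs_logZ hf hb g)

lemma perturb {α : Type*} [MeasurableSpace α] {P : Measure α} [IsProbabilityMeasure P]
    {X Y : α → ι → ℝ} (hX : Measurable X) (hY : Measurable Y) (hL : ∀ x y, |f x - f y| ≤ δ * |x - y|)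
    {η : ℝ} (h : ∀ᵐ w ∂P, ∀ k, |X w k - Y w k| ≤ η) (M : ℕ) :
    freeM f (P.map X) M ≤ freeM f (P.map Y) M + δ * η * M * ∫ z, l1 z ∂gauss ι := by
  have := Measure.isProbabilityMeasure_map hX.aemeasurable (μ := P)
  have := Measure.isProbabilityMeasure_map hY.aemeasurable (μ := P)
  have hδ : 0 ≤ δ := delta_nonneg hf hb
  have hl : Integrable (fun z : ι → ℝ => l1 z) (gauss ι) :=
    integrable_of_bound (C := 1) (M := 1) (by unfold l1; fun_prop) fun g => by
      rw [abs_of_nonneg (l1_nonneg g), one_mul, one_mul]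
      linarith [Real.add_one_le_exp (l1 g)]
  have hev : ∀ a : Fin M, Integrable (fun g : Fin M → ι → ℝ => l1 (g a))
      (Measure.pi fun _ : Fin M => gauss ι) := fun a =>
    (measurePreserving_eval (fun _ : Fin M => gauss ι) a).integrable_comp_of_integrable hl
  have key : ∀ g : Fin M → ι → ℝ,
      logZ f (P.map X) g ≤ logZ f (P.map Y) g + δ * η * ∑ a, l1 (g a) := by
    intro g
    have hp : ∀ {Z : α → ι → ℝ}, Measurable Z → 0 < ∫ w, Real.exp (energy f g (Z w)) ∂P := by
      intro Z hZ
      have := Measure.isProbabilityMeasure_map hZ.aemeasurable (μ := P)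
      have a := (Z_bounds hf hb (ν := P.map Z) g).1
      rw [integral_map hZ.aemeasurable (continuous_energy_right hf hb g).rexp.aestronglyMeasurable] at a
      exact lt_of_lt_of_le (Real.exp_pos _) a
    simp only [logZ, integral_map hX.aemeasurable (continuous_energy_right hf hb g).rexp.aestronglyMeasurable,
      integral_map hY.aemeasurable (continuous_energy_right hf hb g).rexp.aestronglyMeasurable]
    have hle : ∫ w, Real.exp (energy f g (X w)) ∂P ≤
        Real.exp (δ * η * ∑ a, l1 (g a)) * ∫ w, Real.exp (energy f g (Y w)) ∂P := by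
      rw [← integral_const_mul]
      refine integral_mono_ae (integrable_exp_energy hf hb hX g)
        ((integrable_exp_energy hf hb hY g).const_mul _) (h.mono fun w hw => ?_)
      show Real.exp _ ≤ Real.exp _ * Real.exp _
      rw [← Real.exp_add, Real.exp_le_exp, energy, energy, Finset.mul_sum, ← Finset.sum_add_distrib]
      refine Finset.sum_le_sum fun a _ => ?_
      have e : |dot (X w) (g a) - dot (Y w) (g a)| ≤ η * l1 (g a) := by
        have : dot (X w) (g a) - dot (Y w) (g a) = dot (X w - Y w) (g a) := by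
          simp only [dot, Pi.sub_apply, sub_mul, Finset.sum_sub_distrib]
        rw [this]
        exact Vale.Agent.P150.abs_dot_le (fun k => hw k) (g a)
      have := (abs_le.1 ((hL _ _).trans (mul_le_mul_of_nonneg_left e hδ))).2
      linarith
    have := Real.log_le_log (hp hX) hle
    rw [Real.log_mul (Real.exp_pos _).ne' (hp hY).ne', Real.log_exp] at this
    linarith
  have hs : Integrable (fun g : Fin M → ι → ℝ => δ * η * ∑ a, l1 (g a))
      (Measure.pi fun _ : Fin M => gauss ι) := (integrable_finsetSum _ fun a _ => hev a).const_mul _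
  refine (integral_mono (integrable_logZ hf hb) ((integrable_logZ hf hb).add hs) key).trans (le_of_eq ?_)
  rw [integral_add' (integrable_logZ hf hb) hs, integral_const_mul,
    integral_finsetSum _ fun a _ => hev a]
  have e : ∀ a : Fin M, ∫ g : Fin M → ι → ℝ, l1 (g a) ∂Measure.pi (fun _ : Fin M => gauss ι) =
      ∫ z, l1 z ∂gauss ι := fun a => integral_comp_eval hl.aestronglyMeasurable
  simp only [e, Finset.sum_const, Finset.card_univ, Fintype.card_fin, nsmul_eq_mul, freeM]
  ring

omit hf hb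

lemma exists_finite (hν : ∀ᵐ x ∂ν, dot x x = 1) {η : ℝ} (hη : 0 < η) :
    ∃ (S : Type) (_ : Fintype S) (_ : Nonempty S) (W : S → ℝ) (a : S → ι → ℝ) (Y : (ι → ℝ) → ι → ℝ),
      (∀ s, 0 < W s) ∧ (∀ s, dot (a s) (a s) = 1) ∧ Measurable Y ∧
      (∀ᵐ x ∂ν, ∀ k, |x k - Y x k| ≤ η) ∧
      ∀ G : (ι → ℝ) → ℝ, Continuous G → ∫ x, G (Y x) ∂ν = ∑ s, W s * G (a s) := by
  classical
  set K : Set (ι → ℝ) := {x | dot x x = 1} with hKdef
  have hKc : IsCompact K := by
    refine Metric.isCompact_of_isClosed_isBounded (isClosed_eq (by unfold dot; fun_prop) continuous_const) ?_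
    refine (Metric.isBounded_closedBall (x := 0) (r := 1)).subset fun x hx => ?_
    rw [mem_closedBall_zero_iff, pi_norm_le_iff_of_nonneg zero_le_one]
    intro k
    have h1 : x k * x k ≤ 1 := le_of_le_of_eq
      (Finset.single_le_sum (f := fun i => x i * x i) (fun i _ => mul_self_nonneg _) (Finset.mem_univ k)) hx
    rw [Real.norm_eq_abs, ← sq_le_one_iff_abs_le_one, sq]; exact h1
  obtain ⟨T, hTK, hTf, hT⟩ := finite_cover_balls_of_compact hKc hη
  obtain ⟨x0, hx0⟩ : K.Nonempty := by
    obtain ⟨x, hx⟩ := hν.exists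
    exact ⟨x, hx⟩
  set n := hTf.toFinset.card
  set e : ℕ → ι → ℝ := fun k =>
    if h : k < n then ((hTf.toFinset.equivFin.symm ⟨k, h⟩ : hTf.toFinset) : ι → ℝ) else x0 with he
  have heK : ∀ k, e k ∈ K := fun k => by
    simp only [he]; split_ifs with h
    · exact hTK (hTf.mem_toFinset.1 (hTf.toFinset.equivFin.symm ⟨k, h⟩).2)
    · exact hx0
  set idx : (ι → ℝ) → Fin (n + 1) := fun x =>
    ⟨SimpleFunc.nearestPtInd e n x, Nat.lt_succ_of_le (SimpleFunc.nearestPtInd_le e n x)⟩ with hidx
  have hidxm : Measurable idx := by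
    refine measurable_to_countable' fun k => ?_
    have : idx ⁻¹' {k} = (SimpleFunc.nearestPtInd e n) ⁻¹' {(k:ℕ)} := by
      ext x; simp [hidx, Fin.ext_iff]
    rw [this]; exact SimpleFunc.measurableSet_fiber _ _
  set W0 : Fin (n + 1) → ℝ := fun k => (ν.map idx).real {k} with hW0
  have : IsProbabilityMeasure (ν.map idx) := Measure.isProbabilityMeasure_map hidxm.aemeasurable
  have hint : ∀ G : (ι → ℝ) → ℝ, ∫ x, G (e (idx x)) ∂ν = ∑ k, W0 k * G (e k) := fun G => by
    rw [← integral_map (φ := idx) (f := fun k : Fin (n + 1) => G (e k)) hidxm.aemeasurable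
      (measurable_of_finite _).aestronglyMeasurable, integral_fintype Integrable.of_finite]
    rfl
  have hsub : ∀ G : (ι → ℝ) → ℝ,
      ∑ k, W0 k * G (e k) = ∑ s : {k : Fin (n + 1) // 0 < W0 k}, W0 s * G (e (s : Fin (n + 1))) := by
    intro G
    rw [← Finset.sum_subtype (Finset.univ.filter fun k => 0 < W0 k) (by simp) fun k => W0 k * G (e k)]
    refine (Finset.sum_filter_of_ne fun k _ hk => ?_).symm
    exact lt_of_le_of_ne measureReal_nonneg (Ne.symm (left_ne_zero_of_mul hk))
  have hne : Nonempty {k : Fin (n + 1) // 0 < W0 k} := by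
    by_contra hc
    rw [not_nonempty_iff] at hc
    have h1 := (hint fun _ => 1).trans (hsub fun _ => 1)
    simp at h1
  refine ⟨{k : Fin (n + 1) // 0 < W0 k}, inferInstance, hne, fun s => W0 s,
    fun s => e (s : Fin (n + 1)), fun x => e (idx x), fun s => s.2, fun s => heK _,
    (measurable_of_finite (fun k : Fin (n + 1) => e k)).comp hidxm, hν.mono fun x hx k => ?_,
    fun G _ => (hint G).trans (hsub G)⟩
  obtain ⟨y, hy, hxy⟩ := mem_iUnion₂.1 (hT hx)
  set j := hTf.toFinset.equivFin ⟨y, hTf.mem_toFinset.2 hy⟩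
  have hej : e j = y := by
    simp only [he]
    rw [dif_pos j.2]
    simp [j]
  have h2 := SimpleFunc.edist_nearestPt_le e (k := (j:ℕ)) (N := n) x j.2.le
  change edist (e (idx x)) x ≤ _ at h2
  rw [hej, edist_dist, edist_dist, ENNReal.ofReal_le_ofReal_iff dist_nonneg] at h2
  rw [Metric.mem_ball] at hxy
  rw [dist_comm y x] at h2
  have h3 := dist_le_pi_dist (e (idx x)) x k
  rw [Real.dist_eq, abs_sub_comm] at h3
  exact h3.trans (h2.trans hxy.le)

/-- the penalised interpolation inequality for arbitrary laws on the two unit spheres -/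
lemma penalty_measure {f1 f2 f3 : ℝ → ℝ} (hP : Pot f f1 f2 f3 δ) (hδ : δ ≤ 1 / 8)
    (hpair : PairPos (ι ⊕ κ) f1 f2 δ) {ν₁ : Measure (ι → ℝ)} {ν₂ : Measure (κ → ℝ)}
    [IsProbabilityMeasure ν₁] [IsProbabilityMeasure ν₂] (h₁ : ∀ᵐ x ∂ν₁, dot x x = 1)
    (h₂ : ∀ᵐ x ∂ν₂, dot x x = 1) {t : ℝ} (h0 : 0 ≤ t) (h1 : t ≤ 1) (M m₁ m₂ : ℕ) {r : ℝ} (hr : 0 < r) :
    freeM f ν₁ m₁ + freeM f ν₂ m₂ - δ * r
      - δ / (2 * r) * ((M:ℝ) * t * (1 - t) + (t * M - m₁) ^ 2
          + ((M:ℝ) * t * (1 - t) + ((1 - t) * M - m₂) ^ 2)) ≤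
      freeM f ((ν₁.prod ν₂).map (cv t)) M := by
  have hf : Continuous f := continuous_iff_continuousAt.2 fun x => (hP.d0 x).continuousAt
  have hb := hP.b0
  have hL : ∀ x y, |f x - f y| ≤ δ * |x - y| := fun x y => by
    have := convex_univ.norm_image_sub_le_of_norm_hasDerivWithin_le
      (fun z _ => (hP.d0 z).hasDerivWithinAt) (fun z _ => by simpa using hP.b1 z) (mem_univ y) (mem_univ x)
    simpa using this
  set L1 := ∫ z, l1 z ∂gauss ι
  set L2 := ∫ z, l1 z ∂gauss κ
  set L := ∫ z, l1 z ∂gauss (ι ⊕ κ)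
  refine le_of_forall_pos_le_add fun ε hε => ?_
  set C := δ * m₁ * L1 + δ * m₂ * L2 + δ * M * L
  have hδ0 : 0 ≤ δ := delta_nonneg hf hb
  have hLn : ∀ {α : Type _} [Fintype α], 0 ≤ ∫ z, l1 z ∂gauss α := fun {α} _ =>
    integral_nonneg fun z => l1_nonneg z
  have hC : 0 ≤ C := by
    have := hLn (α := ι); have := hLn (α := κ); have := hLn (α := ι ⊕ κ)
    positivity
  set η := ε / (C + 1) with hηdef
  have hη : 0 < η := by positivity
  obtain ⟨S, _, _, W, a, Y, hW, ha, hY, hYd, hYi⟩ := exists_finite h₁ hη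
  obtain ⟨S', _, _, W', b, Y', hW', hb', hY', hYd', hYi'⟩ := exists_finite h₂ hη
  have s1 : ∀ {σ : Type} [Fintype σ] [Nonempty σ] {α : Type _} [Fintype α] (ν : Measure (α → ℝ))
      [IsProbabilityMeasure ν] {V : σ → ℝ} {c : σ → α → ℝ}, (∀ s, 0 < V s) →
      ∀ {Z : (α → ℝ) → α → ℝ}, Measurable Z →
      (∀ G : (α → ℝ) → ℝ, Continuous G → ∫ x, G (Z x) ∂ν = ∑ s, V s * G (c s)) → ∀ m : ℕ,
      freeM f (ν.map Z) m = (avg f c)^[m] (lse V) 0 := by
    intro σ _ _ α _ ν _ V c hV Z hZ hG m
    rw [iterate_eq_integral hf hb hV c m 0, freeM]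
    refine integral_congr_ae (Eventually.of_forall fun g => ?_)
    simp only [logZ, lse]
    rw [integral_map hZ.aemeasurable (continuous_energy_right hf hb g).rexp.aestronglyMeasurable,
      hG (fun x => Real.exp (energy f g x)) (continuous_energy_right hf hb g).rexp]
    simp [energy, inc]
  have e1 : freeM f ν₁ m₁ ≤ (avg f a)^[m₁] (lse W) 0 + δ * η * m₁ * L1 := by
    have := perturb hf hb (P := ν₁) measurable_id hY hL hYd m₁
    rwa [Measure.map_id, s1 ν₁ hW hY hYi] at this
  have e2 : freeM f ν₂ m₂ ≤ (avg f b)^[m₂] (lse W') 0 + δ * η * m₂ * L2 := by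
    have := perturb hf hb (P := ν₂) measurable_id hY' hL hYd' m₂
    rwa [Measure.map_id, s1 ν₂ hW' hY' hYi'] at this
  have hXm : Measurable fun p : (ι → ℝ) × (κ → ℝ) => cv t (Y p.1, Y' p.2) :=
    (continuous_cv t).measurable.comp ((hY.comp measurable_fst).prodMk (hY'.comp measurable_snd))
  have e3 : freeM f ((ν₁.prod ν₂).map fun p => cv t (Y p.1, Y' p.2)) M ≤
      freeM f ((ν₁.prod ν₂).map (cv t)) M + δ * η * M * L := by
    refine perturb hf hb hXm (continuous_cv t).measurable hL ?_ M
    filter_upwards [measurePreserving_fst.quasiMeasurePreserving.ae hYd,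
      measurePreserving_snd.quasiMeasurePreserving.ae hYd'] with p hp hp' k
    rcases k with i | j <;> simp only [cv, Sum.elim_inl, Sum.elim_inr, ← mul_sub, abs_mul,
      abs_of_nonneg (Real.sqrt_nonneg _)]
    · rw [abs_sub_comm]
      exact (mul_le_mul_of_nonneg_left (hp i) (Real.sqrt_nonneg _)).trans
        (mul_le_of_le_one_left hη.le (Real.sqrt_le_one.2 h1))
    · rw [abs_sub_comm]
      exact (mul_le_mul_of_nonneg_left (hp' j) (Real.sqrt_nonneg _)).trans
        (mul_le_of_le_one_left hη.le (Real.sqrt_le_one.2 (by linarith)))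
  have e4 : freeM f ((ν₁.prod ν₂).map fun p => cv t (Y p.1, Y' p.2)) M =
      (avg f (cvec (fun s : S × S' => a s.1) (fun s => b s.2) t))^[M]
        (lse fun s => W s.1 * W' s.2) 0 := by
    rw [iterate_eq_integral hf hb (W := fun s : S × S' => W s.1 * W' s.2)
      (fun s => mul_pos (hW s.1) (hW' s.2)), freeM]
    refine integral_congr_ae (Eventually.of_forall fun g => ?_)
    simp only [logZ, lse]
    rw [integral_map hXm.aemeasurable (continuous_energy_right hf hb g).rexp.aestronglyMeasurable,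
      integral_prod _ (integrable_exp_energy hf hb hXm g)]
    congr 1
    have hG : ∀ u : ι → ℝ, Continuous fun v : κ → ℝ => Real.exp (energy f g (cv t (u, v))) := fun u =>
      (((continuous_energy_right hf hb g).comp ((continuous_cv t).comp
        (continuous_const.prodMk continuous_id)))).rexp
    have hG' : ∀ v : κ → ℝ, Continuous fun u : ι → ℝ => Real.exp (energy f g (cv t (u, v))) := fun v =>
      (((continuous_energy_right hf hb g).comp ((continuous_cv t).comp
        (continuous_id.prodMk continuous_const)))).rexp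
    simp only [fun u : ι → ℝ => hYi' _ (hG u)]
    have hsi : ∀ s : S', Integrable (fun u => W' s * Real.exp (energy f g (cv t (Y u, b s)))) ν₁ :=
      fun s => (integrable_exp_energy hf hb (X := fun u => cv t (Y u, b s))
        ((continuous_cv t).measurable.comp (hY.prodMk measurable_const)) g).const_mul _
    rw [integral_finsetSum _ fun s _ => hsi s]
    simp only [integral_const_mul, fun v : κ → ℝ => hYi _ (hG' v), Finset.mul_sum]
    rw [Fintype.sum_prod_type, Finset.sum_comm]
    refine Finset.sum_congr rfl fun s _ => Finset.sum_congr rfl fun s' _ => ?_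
    simp only [energy, inc, cv, cvec, Pi.zero_apply, zero_add, Finset.sum_apply, Pi.add_apply]
    ring
  have key := penalty hP hδ hpair hW hW' ha hb' h0 h1 M m₁ m₂ hr
  have hηC : η * C ≤ ε := by
    rw [hηdef, div_mul_eq_mul_div, div_le_iff₀ (by positivity)]
    exact mul_le_mul_of_nonneg_left (by linarith) hε.le
  have hex : η * C = δ * η * m₁ * L1 + δ * η * m₂ * L2 + δ * η * M * L := by simp only [C]; ring
  linarith

end Vale.Agent.P157.Lim
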