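import Vale.Agent.P150.GaussCalc

/-! Second-order Gaussian interpolation between a joint system and a pair of independent ones. -/

open MeasureTheory ProbabilityTheory Set
open Vale.Agent.P150

namespace Vale.Agent.P157.Lim

set_option linter.unusedSectionVars false

variable {S ι κ : Type*} [Fintype S] [Fintype ι] [Fintype κ]

/-- continuous and bounded -/
def Bd (F : (S → ℝ) → ℝ) : Prop := Continuous F ∧ ∃ C, ∀ z, |F z| ≤ C

lemma Bd.const (c : ℝ) : Bd (fun _ : S → ℝ => c) := ⟨continuous_const, |c|, fun _ => le_rfl⟩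

lemma Bd.add {F G : (S → ℝ) → ℝ} (hF : Bd F) (hG : Bd G) : Bd (fun z => F z + G z) := by
  obtain ⟨hf, C, hC⟩ := hF
  obtain ⟨hg, E, hE⟩ := hG
  exact ⟨hf.add hg, C + E, fun z => (abs_add_le _ _).trans (add_le_add (hC z) (hE z))⟩

lemma Bd.neg {F : (S → ℝ) → ℝ} (hF : Bd F) : Bd (fun z => -F z) := by
  obtain ⟨hf, C, hC⟩ := hF
  exact ⟨hf.neg, C, fun z => by rw [abs_neg]; exact hC z⟩

lemma Bd.sub {F G : (S → ℝ) → ℝ} (hF : Bd F) (hG : Bd G) : Bd (fun z => F z - G z) := by
  simpa [sub_eq_add_neg] using hF.add hG.neg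

lemma Bd.mul {F G : (S → ℝ) → ℝ} (hF : Bd F) (hG : Bd G) : Bd (fun z => F z * G z) := by
  obtain ⟨hf, C, hC⟩ := hF
  obtain ⟨hg, E, hE⟩ := hG
  exact ⟨hf.mul hg, C * E, fun z => by
    rw [abs_mul]
    exact mul_le_mul (hC z) (hE z) (abs_nonneg _) ((abs_nonneg _).trans (hC z))⟩

lemma Bd.sum {α : Type*} (A : Finset α) {F : α → (S → ℝ) → ℝ} (hF : ∀ i ∈ A, Bd (F i)) :
    Bd (fun z => ∑ i ∈ A, F i z) := by
  classical
  induction A using Finset.induction with
  | empty => simpa using Bd.const (S := S) 0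
  | insert a A ha ih =>
    simp only [Finset.sum_insert ha]
    exact (hF a (Finset.mem_insert_self _ _)).add (ih fun i hi => hF i (Finset.mem_insert_of_mem hi))

lemma Bd.eval {φ : ℝ → ℝ} (hc : Continuous φ) {C : ℝ} (hb : ∀ x, |φ x| ≤ C) (s : S) :
    Bd (fun z : S → ℝ => φ (z s)) :=
  ⟨hc.comp (continuous_apply s), C, fun z => hb (z s)⟩

/-- `H1` is the gradient of `H` -/
def Der (H : (S → ℝ) → ℝ) (H1 : S → (S → ℝ) → ℝ) : Prop :=
  ∀ (c : ℝ → S → ℝ) (c' : S → ℝ) (τ : ℝ), (∀ s, HasDerivAt (fun x => c x s) (c' s) τ) →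
    HasDerivAt (fun x => H (c x)) (∑ v, H1 v (c τ) * c' v) τ

lemma Der.congr {H : (S → ℝ) → ℝ} {A B : S → (S → ℝ) → ℝ} (h : Der H A) (e : ∀ v z, A v z = B v z) :
    Der H B := fun c c' τ hc => (h c c' τ hc).congr_deriv (by simp [e])

lemma Der.const (k : ℝ) : Der (fun _ : S → ℝ => k) (fun _ _ => 0) := fun c c' τ _ => by
  simpa using hasDerivAt_const τ k

lemma Der.eval [DecidableEq S] {φ φ' : ℝ → ℝ} (hφ : ∀ x, HasDerivAt φ (φ' x) x) (s : S) :
    Der (fun z => φ (z s)) (fun v z => if v = s then φ' (z s) else 0) := fun c c' τ hc =>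
  ((hφ _).comp τ (hc s)).congr_deriv (by simp [ite_mul])

lemma Der.add {F G : (S → ℝ) → ℝ} {A B : S → (S → ℝ) → ℝ} (hF : Der F A) (hG : Der G B) :
    Der (fun z => F z + G z) (fun v z => A v z + B v z) := fun c c' τ hc =>
  ((hF c c' τ hc).add (hG c c' τ hc)).congr_deriv (by simp [add_mul, Finset.sum_add_distrib])

lemma Der.mul {F G : (S → ℝ) → ℝ} {A B : S → (S → ℝ) → ℝ} (hF : Der F A) (hG : Der G B) :
    Der (fun z => F z * G z) (fun v z => A v z * G z + F z * B v z) := fun c c' τ hc =>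
  ((hF c c' τ hc).mul (hG c c' τ hc)).congr_deriv (by
    simp only [add_mul, Finset.sum_add_distrib, Finset.sum_mul, Finset.mul_sum]
    exact congrArg₂ _ (Finset.sum_congr rfl fun v _ => by ring)
      (Finset.sum_congr rfl fun v _ => by ring))

lemma Der.comp {φ φ' : ℝ → ℝ} {F : (S → ℝ) → ℝ} {A : S → (S → ℝ) → ℝ} (hF : Der F A)
    (hφ : ∀ z, HasDerivAt φ (φ' (F z)) (F z)) :
    Der (fun z => φ (F z)) (fun v z => φ' (F z) * A v z) := fun c c' τ hc =>
  ((hφ _).comp τ (hF c c' τ hc)).congr_deriv (by simp [Finset.mul_sum, mul_assoc])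

lemma Der.sum {α : Type*} (A : Finset α) {F : α → (S → ℝ) → ℝ} {G : α → S → (S → ℝ) → ℝ}
    (hF : ∀ i ∈ A, Der (F i) (G i)) :
    Der (fun z => ∑ i ∈ A, F i z) (fun v z => ∑ i ∈ A, G i v z) := by
  classical
  induction A using Finset.induction with
  | empty => simpa using Der.const (S := S) 0
  | insert a A ha ih =>
    simp only [Finset.sum_insert ha]
    exact (hF a (Finset.mem_insert_self _ _)).add (ih fun i hi => hF i (Finset.mem_insert_of_mem hi))

/-- interpolated coefficient vector -/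
noncomputable def cvec (a : S → ι → ℝ) (b : S → κ → ℝ) (t : ℝ) (s : S) : ι ⊕ κ → ℝ :=
  Sum.elim (fun i => √t * a s i) (fun j => √(1 - t) * b s j)

/-- the interpolated field -/
noncomputable def field (a : S → ι → ℝ) (b : S → κ → ℝ) (t : ℝ) (g : ι ⊕ κ → ℝ) : S → ℝ :=
  fun s => dot (cvec a b t s) g

/-- difference of the two covariances -/
def dcov (a : S → ι → ℝ) (b : S → κ → ℝ) (u v : S) : ℝ := dot (a u) (a v) - dot (b u) (b v)

variable (a : S → ι → ℝ) (b : S → κ → ℝ)

lemma continuous_field (t : ℝ) : Continuous (field a b t) := by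
  unfold field dot; fun_prop

lemma continuous_field' (g : ι ⊕ κ → ℝ) : Continuous (fun t => field a b t g) := by
  unfold field dot cvec
  refine continuous_pi fun s => continuous_finsetSum _ fun k _ => Continuous.mul ?_ continuous_const
  rcases k with i | j <;> simp only [Sum.elim_inl, Sum.elim_inr] <;> fun_prop

lemma integrable_Bd {H : (S → ℝ) → ℝ} (hH : Bd H) (t : ℝ) :
    Integrable (fun g => H (field a b t g)) (gauss (ι ⊕ κ)) := by
  obtain ⟨hc, C, hC⟩ := hH
  exact Integrable.of_bound (hc.comp (continuous_field a b t)).aestronglyMeasurable C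
    (Filter.Eventually.of_forall fun g => hC _)

/-- derivative of the coefficient vector -/
noncomputable def dvec (t : ℝ) (s : S) : ι ⊕ κ → ℝ :=
  Sum.elim (fun i => a s i * (1 / (2 * √t))) (fun j => b s j * (-1 / (2 * √(1 - t))))

lemma dot_cvec_dvec {t : ℝ} (h0 : 0 < t) (h1 : t < 1) (u v : S) :
    dot (cvec a b t u) (dvec a b t v) = dcov a b u v / 2 := by
  have e0 : √t ≠ 0 := (Real.sqrt_pos.2 h0).ne'
  have e1 : √(1 - t) ≠ 0 := (Real.sqrt_pos.2 (by linarith)).ne'
  unfold dot dcov cvec dvec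
  rw [Fintype.sum_sum_type]
  simp only [Sum.elim_inl, Sum.elim_inr]
  rw [sub_div, sub_eq_add_neg (_ / _), dot, dot, Finset.sum_div, Finset.sum_div,
    ← Finset.sum_neg_distrib]
  congr 1 <;> refine Finset.sum_congr rfl fun i _ => ?_ <;> field_simp

lemma hasDerivAt_field {t : ℝ} (h0 : 0 < t) (h1 : t < 1) (g : ι ⊕ κ → ℝ) (s : S) :
    HasDerivAt (fun x => field a b x g s) (dot (dvec a b t s) g) t := by
  unfold field dot
  refine HasDerivAt.fun_sum fun k _ => ?_
  rcases k with i | j
  · simp only [cvec, dvec, Sum.elim_inl]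
    exact (((Real.hasDerivAt_sqrt h0.ne').mul_const (a s i)).mul_const _).congr_deriv (by ring)
  · simp only [cvec, dvec, Sum.elim_inr]
    exact (((((hasDerivAt_id t).const_sub 1).sqrt (by simp; linarith)).mul_const (b s j)).mul_const
      _).congr_deriv (by simp only [id]; ring)

lemma interp {H : (S → ℝ) → ℝ} {H1 : S → (S → ℝ) → ℝ} {H2 : S → S → (S → ℝ) → ℝ}
    (hH : Bd H) (hd : Der H H1) (hH1 : ∀ v, Bd (H1 v)) (hd1 : ∀ v, Der (H1 v) (H2 v))
    (hH2 : ∀ v u, Bd (H2 v u)) {t : ℝ} (h0 : 0 < t) (h1 : t < 1) :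
    HasDerivAt (fun x => ∫ g, H (field a b x g) ∂gauss (ι ⊕ κ))
      (1 / 2 * ∑ v, ∑ u, dcov a b u v * ∫ g, H2 v u (field a b t g) ∂gauss (ι ⊕ κ)) t := by
  classical
  choose C1 hC1 using fun v => (hH1 v).2
  choose C2 hC2 using fun v u => (hH2 v u).2
  have hC10 : ∀ v, 0 ≤ C1 v := fun v => (abs_nonneg _).trans (hC1 v 0)
  set r : ℝ := min t (1 - t) / 2 with hr
  have hr0 : 0 < r := by have := lt_min h0 (show 0 < 1 - t by linarith); positivity
  have ht : t ∈ Ioo 0 1 := ⟨h0, h1⟩
  have hball : ∀ x ∈ Metric.ball t r, r ≤ x ∧ r ≤ 1 - x := by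
    intro x hx
    rw [Metric.mem_ball, Real.dist_eq, abs_lt] at hx
    have e1 : min t (1 - t) ≤ t := min_le_left _ _
    have e2 : min t (1 - t) ≤ 1 - t := min_le_right _ _
    constructor <;> linarith
  set F' : ℝ → (ι ⊕ κ → ℝ) → ℝ := fun x g => ∑ v, H1 v (field a b x g) * dot (dvec a b x v) g with hF'
  set E : S → ℝ := fun v => (∑ i, |a v i| + ∑ j, |b v j|) * (1 / (2 * √r))
  have hdv : ∀ x ∈ Metric.ball t r, ∀ v k, |dvec a b x v k| ≤ E v := by
    intro x hx v k
    obtain ⟨hx0, hx1⟩ := hball x hx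
    have p0 : (0:ℝ) < √r := Real.sqrt_pos.2 hr0
    have n0 : 0 ≤ ∑ i, |a v i| := Finset.sum_nonneg fun _ _ => abs_nonneg _
    have n1 : 0 ≤ ∑ j, |b v j| := Finset.sum_nonneg fun _ _ => abs_nonneg _
    rcases k with i | j
    · have hi : |a v i| ≤ ∑ i, |a v i| :=
        Finset.single_le_sum (f := fun i => |a v i|) (fun _ _ => abs_nonneg _) (Finset.mem_univ i)
      simp only [dvec, Sum.elim_inl, abs_mul, E]
      rw [abs_of_nonneg (show 0 ≤ 1 / (2 * √x) by positivity)]
      exact mul_le_mul (by linarith) (by gcongr) (by positivity) (by positivity)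
    · have hj : |b v j| ≤ ∑ j, |b v j| :=
        Finset.single_le_sum (f := fun j => |b v j|) (fun _ _ => abs_nonneg _) (Finset.mem_univ j)
      simp only [dvec, Sum.elim_inr, abs_mul, E]
      rw [neg_div, abs_neg, abs_of_nonneg (show 0 ≤ 1 / (2 * √(1 - x)) by positivity)]
      exact mul_le_mul (by linarith) (by gcongr) (by positivity) (by positivity)
  have hFc : ∀ x, Continuous (F' x) := fun x => continuous_finsetSum _ fun v _ =>
    ((hH1 v).1.comp (continuous_field a b x)).mul (by unfold dot; fun_prop)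
  have hl : Integrable (fun g : ι ⊕ κ → ℝ => l1 g) (gauss (ι ⊕ κ)) :=
    integrable_of_bound (C := 1) (M := 1) (by unfold l1; fun_prop) fun g => by
      rw [abs_of_nonneg (l1_nonneg g), one_mul, one_mul]
      linarith [Real.add_one_le_exp (l1 g)]
  have key := (hasDerivAt_integral_of_dominated_loc_of_deriv_le
    (F := fun x g => H (field a b x g)) (F' := F') (bound := fun g => (∑ v, C1 v * E v) * l1 g)
    (Metric.ball_mem_nhds t hr0)
    (Filter.Eventually.of_forall fun x => (hH.1.comp (continuous_field a b x)).aestronglyMeasurable)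
    (integrable_Bd a b hH t) (hFc t).aestronglyMeasurable
    (Filter.Eventually.of_forall fun g x hx => by
      rw [Real.norm_eq_abs, Finset.sum_mul]
      refine (Finset.abs_sum_le_sum_abs _ _).trans (Finset.sum_le_sum fun v _ => ?_)
      rw [abs_mul, mul_assoc]
      exact mul_le_mul (hC1 v _) (abs_dot_le (hdv x hx v) g) (abs_nonneg _) (hC10 v))
    (hl.const_mul _)
    (Filter.Eventually.of_forall fun g x hx => by
      obtain ⟨hx0, hx1⟩ := hball x hx
      exact hd (fun y => field a b y g) _ x fun s => hasDerivAt_field a b (by linarith) (by linarith) g s)).2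
  refine key.congr_deriv ?_
  -- integration by parts
  have hibp : ∀ v k, ∫ g, g k * H1 v (field a b t g) ∂gauss (ι ⊕ κ) =
      ∑ u, cvec a b t u k * ∫ g, H2 v u (field a b t g) ∂gauss (ι ⊕ κ) := by
    intro v k
    have hb2 : Bd (fun z => ∑ u, cvec a b t u k * H2 v u z) :=
      Bd.sum _ fun u _ => (Bd.const _).mul (hH2 v u)
    obtain ⟨hc2, K, hK⟩ := hb2
    rw [gauss_ibp (C := max (C1 v) K) (M := 0) k le_rfl (φ := fun g => H1 v (field a b t g))
      ((hH1 v).1.comp (continuous_field a b t))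
      (φ' := fun g => ∑ u, cvec a b t u k * H2 v u (field a b t g))
      (hc2.comp (continuous_field a b t)) (fun g => by simpa using Or.inl (hC1 v _))
      (fun g => by simpa using Or.inr (hK _)) ?_,
      integral_finsetSum _ fun u _ => (integrable_Bd a b (hH2 v u) t).const_mul _]
    · simp only [integral_const_mul]
    · intro z s
      refine (hd1 v (fun x => field a b t (Function.update z k x)) (fun u => cvec a b t u k) s
        fun u => ?_).congr_deriv (Finset.sum_congr rfl fun u _ => mul_comm _ _)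
      unfold field dot
      refine (HasDerivAt.fun_sum fun i _ => HasDerivAt.const_mul (cvec a b t u i)
        ((hasDerivAt_pi.1 (hasDerivAt_update z k s)) i)).congr_deriv ?_
      simp [Pi.single_apply]
  have hint : ∀ v k, Integrable (fun g => g k * H1 v (field a b t g)) (gauss (ι ⊕ κ)) := by
    intro v k
    refine integrable_of_bound (C := C1 v) (M := 1)
      ((continuous_apply k).mul ((hH1 v).1.comp (continuous_field a b t))) fun g => ?_
    rw [abs_mul, one_mul, mul_comm (C1 v)]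
    exact mul_le_mul ((abs_le_l1 g k).trans (by linarith [Real.add_one_le_exp (l1 g)])) (hC1 v _)
      (abs_nonneg _) (Real.exp_pos _).le
  have e : ∀ g, F' t g = ∑ v, ∑ k, dvec a b t v k * (g k * H1 v (field a b t g)) := fun g => by
    simp only [hF', dot, Finset.mul_sum]
    exact Finset.sum_congr rfl fun v _ => Finset.sum_congr rfl fun k _ => by ring
  simp only [e]
  rw [integral_finsetSum _ fun v _ => integrable_finsetSum _ fun k _ => (hint v k).const_mul _,
    Finset.mul_sum]
  refine Finset.sum_congr rfl fun v _ => ?_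
  rw [integral_finsetSum _ fun k _ => (hint v k).const_mul _]
  simp only [integral_const_mul, hibp, Finset.mul_sum]
  rw [Finset.sum_comm]
  refine Finset.sum_congr rfl fun u _ => ?_
  rw [← mul_assoc, one_div_mul_eq_div, ← dot_cvec_dvec a b h0 h1, dot, Finset.sum_mul]
  exact Finset.sum_congr rfl fun k _ => by ring

end Vale.Agent.P157.Lim
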