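import Vale.Agent.P157.Lim.Concave

/-! Adding patterns one at a time: the joint system dominates a binomial mixture of two systems. -/

open MeasureTheory ProbabilityTheory Set
open Vale.Agent.P150

namespace Vale.Agent.P157.Lim

set_option linter.unusedSectionVars false

variable {S ι κ : Type*} [Fintype S] [Fintype ι] [Fintype κ]
variable {f f1 f2 f3 : ℝ → ℝ} {δ : ℝ}

/-- non-expansive functionals of the energy vector -/
def Good (Φ : (S → ℝ) → ℝ) : Prop := ∀ E E', Φ E - Φ E' ≤ ‖E - E'‖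

lemma Good.continuous {Φ : (S → ℝ) → ℝ} (h : Good Φ) : Continuous Φ :=
  (LipschitzWith.of_dist_le_mul (K := 1) fun E E' => by
    rw [Real.dist_eq, dist_eq_norm, NNReal.coe_one, one_mul, abs_le]
    have h1 := h E E'
    have h2 := h E' E
    rw [norm_sub_rev] at h2
    constructor <;> linarith).continuous

lemma Good.bound {Φ : (S → ℝ) → ℝ} (h : Good Φ) (E v : S → ℝ) {r : ℝ} (hr : 0 ≤ r)
    (hv : ∀ s, |v s| ≤ r) : |Φ (E + v) - Φ E| ≤ r := by
  have hn : ‖v‖ ≤ r := (pi_norm_le_iff_of_nonneg hr).2 fun s => by simpa using hv s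
  have h1 := h (E + v) E
  have h2 := h E (E + v)
  rw [add_sub_cancel_left] at h1
  rw [norm_sub_rev, add_sub_cancel_left] at h2
  rw [abs_le]; constructor <;> linarith

/-- energy increment of one pattern -/
def inc (f : ℝ → ℝ) (x : S → ι → ℝ) (g : ι → ℝ) : S → ℝ := fun s => f (dot (x s) g)

/-- averaging over one pattern -/
noncomputable def avg (f : ℝ → ℝ) (x : S → ι → ℝ) (Φ : (S → ℝ) → ℝ) (E : S → ℝ) : ℝ :=
  ∫ g, Φ (E + inc f x g) ∂gauss ι

/-- log partition functional -/
noncomputable def lse (W : S → ℝ) (E : S → ℝ) : ℝ := Real.log (∑ s, W s * Real.exp (E s))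

lemma good_lse [Nonempty S] {W : S → ℝ} (hW : ∀ s, 0 < W s) : Good (lse W) := fun E E' => by
  have pos : ∀ E : S → ℝ, 0 < ∑ s, W s * Real.exp (E s) := fun E =>
    Finset.sum_pos (fun s _ => mul_pos (hW s) (Real.exp_pos _)) Finset.univ_nonempty
  have h : ∑ s, W s * Real.exp (E s) ≤ (∑ s, W s * Real.exp (E' s)) * Real.exp ‖E - E'‖ := by
    rw [Finset.sum_mul]
    refine Finset.sum_le_sum fun s _ => ?_
    rw [mul_assoc, ← Real.exp_add]
    refine mul_le_mul_of_nonneg_left (Real.exp_le_exp.2 ?_) (hW s).le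
    have := norm_le_pi_norm (E - E') s
    rw [Pi.sub_apply, Real.norm_eq_abs] at this
    linarith [le_abs_self (E s - E' s)]
  have := Real.log_le_log (pos E) h
  rw [Real.log_mul (pos E').ne' (Real.exp_pos _).ne', Real.log_exp] at this
  unfold lse; linarith

variable (hf : Continuous f) (hb : ∀ x, |f x| ≤ δ)
include hf hb

lemma continuous_inc (x : S → ι → ℝ) : Continuous (inc f x) := by
  unfold inc dot; fun_prop

lemma delta_nonneg : 0 ≤ δ := (abs_nonneg _).trans (hb 0)

lemma integrable_avg {Φ : (S → ℝ) → ℝ} (hΦ : Good Φ) (x : S → ι → ℝ) (E : S → ℝ) :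
    Integrable (fun g => Φ (E + inc f x g)) (gauss ι) :=
  Integrable.of_bound (hΦ.continuous.comp (continuous_const.add (continuous_inc hf hb x))).aestronglyMeasurable
    (|Φ E| + δ) (Filter.Eventually.of_forall fun g => by
      have := abs_le.1 (hΦ.bound E (inc f x g) (delta_nonneg hf hb) fun s => hb _)
      rw [Real.norm_eq_abs, abs_le]
      constructor <;> linarith [le_abs_self (Φ E), neg_abs_le (Φ E)])

lemma good_avg {Φ : (S → ℝ) → ℝ} (hΦ : Good Φ) (x : S → ι → ℝ) : Good (avg f x Φ) := fun E E' => by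
  unfold avg
  rw [← integral_sub (integrable_avg hf hb hΦ x E) (integrable_avg hf hb hΦ x E')]
  refine (integral_mono ((integrable_avg hf hb hΦ x E).sub (integrable_avg hf hb hΦ x E'))
    (integrable_const ‖E - E'‖) fun g => ?_).trans (by simp)
  simpa using hΦ (E + inc f x g) (E' + inc f x g)

lemma good_iterate {Φ : (S → ℝ) → ℝ} (hΦ : Good Φ) (x : S → ι → ℝ) (n : ℕ) :
    Good ((avg f x)^[n] Φ) := by
  induction n with
  | zero => exact hΦ
  | succ n ih => rw [Function.iterate_succ_apply']; exact good_avg hf hb ih x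

lemma avg_mono {Φ Ψ : (S → ℝ) → ℝ} (hΦ : Good Φ) (hΨ : Good Ψ) (h : ∀ E, Φ E ≤ Ψ E) (x : S → ι → ℝ)
    (E : S → ℝ) : avg f x Φ E ≤ avg f x Ψ E :=
  integral_mono (integrable_avg hf hb hΦ x E) (integrable_avg hf hb hΨ x E) fun _ => h _

lemma avg_comm {Φ : (S → ℝ) → ℝ} (hΦ : Good Φ) (x : S → ι → ℝ) (y : S → κ → ℝ) :
    avg f x (avg f y Φ) = avg f y (avg f x Φ) := by
  funext E
  unfold avg
  rw [integral_integral_swap]
  · simp only [add_right_comm]
  · refine Integrable.of_bound (Continuous.aestronglyMeasurable ?_) (|Φ E| + 2 * δ)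
      (Filter.Eventually.of_forall fun p => ?_)
    · exact hΦ.continuous.comp (((continuous_const.add ((continuous_inc hf hb x).comp continuous_fst))).add
        ((continuous_inc hf hb y).comp continuous_snd))
    · simp only [Function.uncurry, Real.norm_eq_abs]
      rw [add_assoc]
      have := abs_le.1 (hΦ.bound E (inc f x p.1 + inc f y p.2) (r := 2 * δ)
        (by linarith [delta_nonneg hf hb]) fun s => by
          refine (abs_add_le _ _).trans ?_
          simp only [inc]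
          linarith [hb (dot (x s) p.1), hb (dot (y s) p.2)])
      rw [abs_le]
      constructor <;> linarith [le_abs_self (Φ E), neg_abs_le (Φ E)]

lemma iterate_comm {Φ : (S → ℝ) → ℝ} (hΦ : Good Φ) (x : S → ι → ℝ) (y : S → κ → ℝ) (n : ℕ) :
    avg f x ((avg f y)^[n] Φ) = (avg f y)^[n] (avg f x Φ) := by
  induction n with
  | zero => rfl
  | succ n ih =>
    rw [Function.iterate_succ_apply', Function.iterate_succ_apply',
      avg_comm hf hb (good_iterate hf hb hΦ y n), ih]

lemma iterate_mono {Φ Ψ : (S → ℝ) → ℝ} (hΦ : Good Φ) (hΨ : Good Ψ) (h : ∀ E, Φ E ≤ Ψ E)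
    (x : S → ι → ℝ) (n : ℕ) (E : S → ℝ) : (avg f x)^[n] Φ E ≤ (avg f x)^[n] Ψ E := by
  induction n generalizing E with
  | zero => exact h E
  | succ n ih =>
    rw [Function.iterate_succ_apply', Function.iterate_succ_apply']
    exact avg_mono hf hb (good_iterate hf hb hΦ x n) (good_iterate hf hb hΨ x n) ih x E

lemma abs_avg_sub {Φ : (S → ℝ) → ℝ} (hΦ : Good Φ) (x : S → ι → ℝ) (E : S → ℝ) :
    |avg f x Φ E - Φ E| ≤ δ := by
  have h : avg f x Φ E - Φ E = ∫ g, (Φ (E + inc f x g) - Φ E) ∂gauss ι := by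
    rw [integral_sub (integrable_avg hf hb hΦ x E) (integrable_const _)]; simp [avg]
  rw [h]
  have := norm_integral_le_of_norm_le_const (μ := gauss ι) (f := fun g => Φ (E + inc f x g) - Φ E)
    (C := δ) (Filter.Eventually.of_forall fun g =>
      hΦ.bound E (inc f x g) (delta_nonneg hf hb) fun s => hb _)
  simpa using this

lemma abs_iterate_sub {Φ : (S → ℝ) → ℝ} (hΦ : Good Φ) (x : S → ι → ℝ) (E : S → ℝ) (i k : ℕ) :
    |(avg f x)^[i] Φ E - (avg f x)^[k] Φ E| ≤ δ * |(i:ℝ) - k| := by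
  have key : ∀ i d : ℕ, |(avg f x)^[i + d] Φ E - (avg f x)^[i] Φ E| ≤ δ * d := by
    intro i d
    induction d with
    | zero => simp
    | succ d ih =>
      rw [← add_assoc, Function.iterate_succ_apply']
      have := abs_avg_sub hf hb (good_iterate hf hb hΦ x (i + d)) x E
      push_cast
      calc _ ≤ _ := abs_sub_le _ ((avg f x)^[i + d] Φ E) _
        _ ≤ δ + δ * d := add_le_add this ih
        _ = _ := by ring
  rcases le_total k i with h | h
  · obtain ⟨d, rfl⟩ := Nat.exists_eq_add_of_le h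
    have := key k d
    push_cast
    rwa [add_sub_cancel_left, Nat.abs_cast]
  · obtain ⟨d, rfl⟩ := Nat.exists_eq_add_of_le h
    rw [abs_sub_comm, abs_sub_comm (i:ℝ)]
    have := key i d
    push_cast
    rwa [add_sub_cancel_left, Nat.abs_cast]

/-- binomial averaging, by recursion -/
noncomputable def binAvg (θ : ℝ) : ℕ → (ℕ → ℕ → ℝ) → ℝ
  | 0, F => F 0 0
  | M + 1, F => θ * binAvg θ M (fun i j => F (i + 1) j) + (1 - θ) * binAvg θ M (fun i j => F i (j + 1))

omit hf hb

lemma binAvg_mono {θ : ℝ} (h0 : 0 ≤ θ) (h1 : θ ≤ 1) : ∀ (M : ℕ) {F G : ℕ → ℕ → ℝ},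
    (∀ i j, F i j ≤ G i j) → binAvg θ M F ≤ binAvg θ M G
  | 0, F, G, h => h 0 0
  | M + 1, F, G, h => add_le_add
      (mul_le_mul_of_nonneg_left (binAvg_mono h0 h1 M fun i j => h _ _) h0)
      (mul_le_mul_of_nonneg_left (binAvg_mono h0 h1 M fun i j => h _ _) (by linarith))

lemma binAvg_lin (θ a b : ℝ) : ∀ (M : ℕ) (F G : ℕ → ℕ → ℝ),
    binAvg θ M (fun i j => a * F i j + b * G i j) = a * binAvg θ M F + b * binAvg θ M G
  | 0, F, G => rfl
  | M + 1, F, G => by
    simp only [binAvg]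
    rw [binAvg_lin θ a b M (fun i j => F (i+1) j) (fun i j => G (i+1) j),
      binAvg_lin θ a b M (fun i j => F i (j+1)) (fun i j => G i (j+1))]
    ring

lemma binAvg_const (θ c : ℝ) : ∀ M : ℕ, binAvg θ M (fun _ _ => c) = c
  | 0 => rfl
  | M + 1 => by simp only [binAvg, binAvg_const θ c M]; ring

lemma binAvg_sq (θ : ℝ) : ∀ (M : ℕ) (c : ℝ),
    binAvg θ M (fun i _ => ((i:ℝ) - c) ^ 2) = M * θ * (1 - θ) + (θ * M - c) ^ 2
  | 0, c => by simp [binAvg]
  | M + 1, c => by
    have e : (fun (i j : ℕ) => (((i + 1 : ℕ) : ℝ) - c) ^ 2) = fun (i : ℕ) (_ : ℕ) => ((i:ℝ) - (c - 1)) ^ 2 := by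
      funext i j; push_cast; ring
    simp only [binAvg, e, binAvg_sq θ M (c - 1), binAvg_sq θ M c]
    push_cast; ring

lemma binAvg_sq' (θ : ℝ) : ∀ (M : ℕ) (c : ℝ),
    binAvg θ M (fun _ j => ((j:ℝ) - c) ^ 2) = M * θ * (1 - θ) + ((1 - θ) * M - c) ^ 2
  | 0, c => by simp [binAvg]
  | M + 1, c => by
    have e : (fun (i j : ℕ) => (((j + 1 : ℕ) : ℝ) - c) ^ 2) = fun (_ : ℕ) (j : ℕ) => ((j:ℝ) - (c - 1)) ^ 2 := by
      funext i j; push_cast; ring
    simp only [binAvg, e, binAvg_sq' θ M (c - 1), binAvg_sq' θ M c]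
    push_cast; ring

lemma good_binAvg {θ : ℝ} (h0 : 0 ≤ θ) (h1 : θ ≤ 1) : ∀ (M : ℕ) {Φ : ℕ → ℕ → (S → ℝ) → ℝ},
    (∀ i j, Good (Φ i j)) → Good (fun E => binAvg θ M (fun i j => Φ i j E))
  | 0, Φ, h => h 0 0
  | M + 1, Φ, h => fun E E' => by
    simp only [binAvg]
    have a := good_binAvg h0 h1 M (Φ := fun i j => Φ (i+1) j) (fun i j => h _ _) E E'
    have b := good_binAvg h0 h1 M (Φ := fun i j => Φ i (j+1)) (fun i j => h _ _) E E'
    have a' := mul_le_mul_of_nonneg_left a h0
    have b' := mul_le_mul_of_nonneg_left b (show 0 ≤ 1 - θ by linarith)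
    linarith

include hf hb

lemma avg_binAvg {θ : ℝ} (h0 : 0 ≤ θ) (h1 : θ ≤ 1) (x : S → ι → ℝ) (E : S → ℝ) :
    ∀ (M : ℕ) {Φ : ℕ → ℕ → (S → ℝ) → ℝ}, (∀ i j, Good (Φ i j)) →
      avg f x (fun E => binAvg θ M (fun i j => Φ i j E)) E = binAvg θ M (fun i j => avg f x (Φ i j) E)
  | 0, Φ, h => rfl
  | M + 1, Φ, h => by
    simp only [binAvg, ← avg_binAvg h0 h1 x E M (Φ := fun i j => Φ (i+1) j) (fun i j => h _ _),
      ← avg_binAvg h0 h1 x E M (Φ := fun i j => Φ i (j+1)) (fun i j => h _ _)]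
    unfold avg
    rw [integral_add ((integrable_avg hf hb (good_binAvg h0 h1 M
      (Φ := fun i j => Φ (i+1) j) fun i j => h _ _) x E).const_mul θ)
      ((integrable_avg hf hb (good_binAvg h0 h1 M
      (Φ := fun i j => Φ i (j+1)) fun i j => h _ _) x E).const_mul _), integral_const_mul, integral_const_mul]

omit hf hb

/-- the three coefficient families act on one Gaussian space -/
lemma avg_step [Nonempty S] (hP : Pot f f1 f2 f3 δ) (hδ : δ ≤ 1 / 8)
    (hpair : PairPos (ι ⊕ κ) f1 f2 δ) {W : S → ℝ} (hW : ∀ s, 0 < W s) {a : S → ι → ℝ} {b : S → κ → ℝ}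
    (ha : ∀ s, dot (a s) (a s) = 1) (hb' : ∀ s, dot (b s) (b s) = 1) {θ : ℝ} (h0 : 0 ≤ θ) (h1 : θ ≤ 1)
    (E : S → ℝ) :
    θ * avg f (cvec a b 1) (lse W) E + (1 - θ) * avg f (cvec a b 0) (lse W) E ≤
      avg f (cvec a b θ) (lse W) E := by
  have e : ∀ t, phi (fun s => W s * Real.exp (E s)) f a b t = avg f (cvec a b t) (lse W) E := fun t => by
    simp only [phi, avg, lse, den, inc, field, Pi.add_apply, Real.exp_add, mul_assoc]
  rw [← e, ← e, ← e]
  exact phi_step hP (fun s => mul_pos (hW s) (Real.exp_pos _)) hδ hpair ha hb' h0 h1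

lemma mixture_le [Nonempty S] (hP : Pot f f1 f2 f3 δ) (hδ : δ ≤ 1 / 8)
    (hpair : PairPos (ι ⊕ κ) f1 f2 δ) {W : S → ℝ} (hW : ∀ s, 0 < W s) {a : S → ι → ℝ} {b : S → κ → ℝ}
    (ha : ∀ s, dot (a s) (a s) = 1) (hb' : ∀ s, dot (b s) (b s) = 1) {θ : ℝ} (h0 : 0 ≤ θ) (h1 : θ ≤ 1) :
    ∀ (M : ℕ) (E : S → ℝ),
      binAvg θ M (fun i j => (avg f (cvec a b 1))^[i] ((avg f (cvec a b 0))^[j] (lse W)) E) ≤
        (avg f (cvec a b θ))^[M] (lse W) E := by
  have hf : Continuous f := continuous_iff_continuousAt.2 fun x => (hP.d0 x).continuousAt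
  have hb := hP.b0
  have hL := good_lse hW
  set A := cvec a b 1
  set B := cvec a b 0
  set C := cvec a b θ
  set H := fun (i j : ℕ) => (avg f A)^[i] ((avg f B)^[j] (lse W)) with hH
  have hg : ∀ i j, Good (H i j) := fun i j =>
    good_iterate hf hb (good_iterate hf hb hL B j) A i
  intro M
  induction M with
  | zero => exact fun E => le_rfl
  | succ M ih =>
    intro E
    rw [Function.iterate_succ_apply']
    refine le_trans ?_ (avg_mono hf hb (good_binAvg h0 h1 M hg) (good_iterate hf hb hL C M) ih C E)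
    rw [avg_binAvg hf hb h0 h1 C E M hg]
    simp only [binAvg]
    rw [← binAvg_lin]
    refine binAvg_mono h0 h1 M fun i j => ?_
    have hgA := good_avg hf hb hL A
    have hgB := good_avg hf hb hL B
    have eC : avg f C (H i j) = (avg f A)^[i] ((avg f B)^[j] (avg f C (lse W))) := by
      rw [iterate_comm hf hb (good_iterate hf hb hL B j) C A i, iterate_comm hf hb hL C B j]
    have eA : (avg f A)^[i + 1] ((avg f B)^[j] (lse W)) = (avg f A)^[i] ((avg f B)^[j] (avg f A (lse W))) := by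
      rw [Function.iterate_succ_apply, iterate_comm hf hb hL A B j]
    rw [eC, eA, Function.iterate_succ_apply]
    set Ψ : (S → ℝ) → ℝ := fun E => θ * avg f A (lse W) E + (1 - θ) * avg f B (lse W) E with hΨ
    have hgΨ : Good Ψ := fun E E' => by
      have a' := mul_le_mul_of_nonneg_left (hgA E E') h0
      have b' := mul_le_mul_of_nonneg_left (hgB E E') (show 0 ≤ 1 - θ by linarith)
      simp only [hΨ]; linarith
    have hgC := good_avg hf hb hL C
    have lin : ∀ {ι' : Type _} [Fintype ι'] (x : S → ι' → ℝ) (n : ℕ) {P Q : (S → ℝ) → ℝ},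
        Good P → Good Q → (avg f x)^[n] (fun E => θ * P E + (1 - θ) * Q E) =
          fun E => θ * (avg f x)^[n] P E + (1 - θ) * (avg f x)^[n] Q E := by
      intro ι' _ x n P Q hP' hQ'
      induction n with
      | zero => rfl
      | succ n ih2 =>
        rw [Function.iterate_succ_apply', Function.iterate_succ_apply', Function.iterate_succ_apply', ih2]
        funext E
        show ∫ g, (θ * (avg f x)^[n] P (E + inc f x g) + (1 - θ) * (avg f x)^[n] Q (E + inc f x g)) ∂gauss ι' =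
          θ * ∫ g, (avg f x)^[n] P (E + inc f x g) ∂gauss ι' +
            (1 - θ) * ∫ g, (avg f x)^[n] Q (E + inc f x g) ∂gauss ι'
        rw [integral_add ((integrable_avg hf hb (good_iterate hf hb hP' x n) x E).const_mul θ)
          ((integrable_avg hf hb (good_iterate hf hb hQ' x n) x E).const_mul _), integral_const_mul,
          integral_const_mul]
    refine le_trans (le_of_eq ?_) (iterate_mono hf hb (good_iterate hf hb hgΨ B j)
      (good_iterate hf hb hgC B j)
      (fun E => iterate_mono hf hb hgΨ hgC (avg_step hP hδ hpair hW ha hb' h0 h1) B j E) A i E)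
    rw [lin B j hgA hgB, lin A i (good_iterate hf hb hgA B j) (good_iterate hf hb hgB B j)]

end Vale.Agent.P157.Lim
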