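import Vale.Agent.P157.Lim.Calc

/-! The interpolation for one pattern is concave when the potential is small. -/

open MeasureTheory ProbabilityTheory Set
open Vale.Agent.P150

namespace Vale.Agent.P157.Lim

set_option linter.unusedSectionVars false

variable {S ι κ : Type*} [Fintype S] [Fintype ι] [Fintype κ]

/-- a potential together with its first three derivatives, all bounded by `δ` -/
structure Pot (f f1 f2 f3 : ℝ → ℝ) (δ : ℝ) : Prop where
  d0 : ∀ x, HasDerivAt f (f1 x) x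
  d1 : ∀ x, HasDerivAt f1 (f2 x) x
  d2 : ∀ x, HasDerivAt f2 (f3 x) x
  cont3 : Continuous f3
  b0 : ∀ x, |f x| ≤ δ
  b1 : ∀ x, |f1 x| ≤ δ
  b2 : ∀ x, |f2 x| ≤ δ
  b3 : ∀ x, |f3 x| ≤ δ

variable (W : S → ℝ) (f f1 f2 f3 : ℝ → ℝ) (D : S → S → ℝ) (z : S → ℝ)

/-- partition sum -/
noncomputable def den : ℝ := ∑ s, W s * Real.exp (f (z s))
/-- Gibbs weight -/
noncomputable def pp (v : S) : ℝ := W v * Real.exp (f (z v)) * (den W f z)⁻¹
/-- first-order weight -/
noncomputable def rr (v : S) : ℝ := pp W f z v * f1 (z v)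
/-- `f'² + f''` -/
def cf (x : ℝ) : ℝ := f1 x * f1 x + f2 x
/-- second-order weight -/
noncomputable def pc (v : S) : ℝ := pp W f z v * cf f1 f2 (z v)
/-- third-order weight -/
noncomputable def ec (v : S) : ℝ :=
  pp W f z v * (f1 (z v) * cf f1 f2 (z v) + (2 * (f1 (z v) * f2 (z v)) + f3 (z v)))
/-- `D r` -/
noncomputable def Dr (v : S) : ℝ := ∑ u, D v u * rr W f f1 z u
/-- `r D r` -/
noncomputable def rDr : ℝ := ∑ v, rr W f f1 z v * Dr W f f1 D z v

/-- the derivative functional -/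
noncomputable def QQ : ℝ := -(1 / 2) * rDr W f f1 D z
/-- its gradient -/
noncomputable def Q1 (v : S) : ℝ :=
  -(Dr W f f1 D z v * pc W f f1 f2 z v - rDr W f f1 D z * rr W f f1 z v)

open Classical in
/-- Hessian of `log den` -/
noncomputable def L2 (v u : S) : ℝ :=
  (if u = v then pc W f f1 f2 z v else 0) - rr W f f1 z v * rr W f f1 z u

open Classical in
/-- gradient of `Q1` -/
noncomputable def Q2 (v u : S) : ℝ :=
  -((D v u * pc W f f1 f2 z u - Dr W f f1 D z v * rr W f f1 z u) * pc W f f1 f2 z v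
    + Dr W f f1 D z v * ((if u = v then ec W f f1 f2 f3 z v else 0) - pc W f f1 f2 z v * rr W f f1 z u)
    - 2 * (Dr W f f1 D z u * pc W f f1 f2 z u - rDr W f f1 D z * rr W f f1 z u) * rr W f f1 z v
    - rDr W f f1 D z * L2 W f f1 f2 z v u)

variable {W f f1 f2 f3 D z} {δ : ℝ}

lemma den_pos [Nonempty S] (hW : ∀ s, 0 < W s) : 0 < den W f z :=
  Finset.sum_pos (fun s _ => mul_pos (hW s) (Real.exp_pos _)) Finset.univ_nonempty

lemma pp_nonneg [Nonempty S] (hW : ∀ s, 0 < W s) (v : S) : 0 ≤ pp W f z v :=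
  (mul_pos (mul_pos (hW v) (Real.exp_pos _)) (inv_pos.2 (den_pos hW))).le

lemma sum_pp [Nonempty S] (hW : ∀ s, 0 < W s) : ∑ v, pp W f z v = 1 := by
  simp only [pp]
  rw [← Finset.sum_mul]
  exact mul_inv_cancel₀ (den_pos hW).ne'

lemma pp_le_one [Nonempty S] (hW : ∀ s, 0 < W s) (v : S) : pp W f z v ≤ 1 :=
  (Finset.single_le_sum (fun u _ => pp_nonneg hW u) (Finset.mem_univ v)).trans (sum_pp hW).le

variable (hP : Pot f f1 f2 f3 δ) (hW : ∀ s, 0 < W s)
include hP hW

lemma Bd_logden [Nonempty S] : Bd (fun z => Real.log (den W f z)) := by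
  have hf : Continuous f := continuous_iff_continuousAt.2 fun x => (hP.d0 x).continuousAt
  have hc : Continuous fun z => den W f z := by unfold den; fun_prop
  refine ⟨hc.log fun z => (den_pos hW).ne', |Real.log (∑ s, W s)| + δ, fun z => ?_⟩
  have hS : 0 < ∑ s, W s := Finset.sum_pos (fun s _ => hW s) Finset.univ_nonempty
  have hb := fun s => abs_le.1 (hP.b0 (z s))
  have h1 : den W f z ≤ (∑ s, W s) * Real.exp δ := by
    rw [den, Finset.sum_mul]
    exact Finset.sum_le_sum fun s _ =>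
      mul_le_mul_of_nonneg_left (Real.exp_le_exp.2 (hb s).2) (hW s).le
  have h2 : (∑ s, W s) * Real.exp (-δ) ≤ den W f z := by
    rw [den, Finset.sum_mul]
    exact Finset.sum_le_sum fun s _ =>
      mul_le_mul_of_nonneg_left (Real.exp_le_exp.2 (hb s).1) (hW s).le
  have l1 := Real.log_le_log (den_pos hW) h1
  have l2 := Real.log_le_log (by positivity) h2
  rw [Real.log_mul hS.ne' (Real.exp_pos _).ne', Real.log_exp] at l1 l2
  rw [abs_le]
  constructor <;> linarith [le_abs_self (Real.log (∑ s, W s)), neg_abs_le (Real.log (∑ s, W s))]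

lemma Bd_pp [Nonempty S] (v : S) : Bd (fun z => pp W f z v) := by
  have hf : Continuous f := continuous_iff_continuousAt.2 fun x => (hP.d0 x).continuousAt
  have hc : Continuous fun z => den W f z := by unfold den; fun_prop
  refine ⟨Continuous.mul (by fun_prop) (hc.inv₀ fun z => (den_pos hW).ne'), 1, fun z => ?_⟩
  exact (abs_of_nonneg (pp_nonneg hW v)).trans_le (pp_le_one hW v)

lemma Bd_f1 (v : S) : Bd (fun z => f1 (z v)) :=
  Bd.eval (continuous_iff_continuousAt.2 fun x => (hP.d1 x).continuousAt) hP.b1 v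

lemma Bd_f2 (v : S) : Bd (fun z => f2 (z v)) :=
  Bd.eval (continuous_iff_continuousAt.2 fun x => (hP.d2 x).continuousAt) hP.b2 v

lemma Bd_rr [Nonempty S] (v : S) : Bd (fun z => rr W f f1 z v) :=
  (Bd_pp hP hW v).mul (Bd_f1 hP hW v)

lemma Bd_cf (v : S) : Bd (fun z => cf f1 f2 (z v)) :=
  ((Bd_f1 hP hW v).mul (Bd_f1 hP hW v)).add (Bd_f2 hP hW v)

lemma Bd_pc [Nonempty S] (v : S) : Bd (fun z => pc W f f1 f2 z v) :=
  (Bd_pp hP hW v).mul (Bd_cf hP hW v)

lemma Bd_ec [Nonempty S] (v : S) : Bd (fun z => ec W f f1 f2 f3 z v) :=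
  (Bd_pp hP hW v).mul (((Bd_f1 hP hW v).mul (Bd_cf hP hW v)).add
    (((Bd.const 2).mul ((Bd_f1 hP hW v).mul (Bd_f2 hP hW v))).add (Bd.eval hP.cont3 hP.b3 v)))

lemma Bd_Dr [Nonempty S] (v : S) : Bd (fun z => Dr W f f1 D z v) :=
  Bd.sum _ fun u _ => (Bd.const _).mul (Bd_rr hP hW u)

lemma Bd_rDr [Nonempty S] : Bd (fun z => rDr W f f1 D z) :=
  Bd.sum _ fun v _ => (Bd_rr hP hW v).mul (Bd_Dr hP hW v)

lemma Bd_L2 [Nonempty S] (v u : S) : Bd (fun z => L2 W f f1 f2 z v u) := by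
  refine Bd.sub ?_ ((Bd_rr hP hW v).mul (Bd_rr hP hW u))
  split_ifs
  · exact Bd_pc hP hW v
  · exact Bd.const 0

lemma Bd_Q1 [Nonempty S] (v : S) : Bd (fun z => Q1 W f f1 f2 D z v) :=
  (((Bd_Dr hP hW v).mul (Bd_pc hP hW v)).sub ((Bd_rDr hP hW).mul (Bd_rr hP hW v))).neg

lemma Bd_Q2 [Nonempty S] (v u : S) : Bd (fun z => Q2 W f f1 f2 f3 D z v u) := by
  refine (((((((Bd.const _).mul (Bd_pc hP hW u)).sub ((Bd_Dr hP hW v).mul (Bd_rr hP hW u))).mul
    (Bd_pc hP hW v)).add ((Bd_Dr hP hW v).mul (Bd.sub ?_ ((Bd_pc hP hW v).mul (Bd_rr hP hW u))))).sub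
    (((Bd.const 2).mul (((Bd_Dr hP hW u).mul (Bd_pc hP hW u)).sub
      ((Bd_rDr hP hW).mul (Bd_rr hP hW u)))).mul (Bd_rr hP hW v))).sub
    ((Bd_rDr hP hW).mul (Bd_L2 hP hW v u))).neg
  split_ifs
  · exact Bd_ec hP hW v
  · exact Bd.const 0

lemma Der_den [DecidableEq S] : Der (fun z => den W f z)
    (fun v z => W v * (Real.exp (f (z v)) * f1 (z v))) :=
  (Der.sum Finset.univ fun s _ => (Der.const (W s)).mul
    (Der.eval (φ := fun x => Real.exp (f x)) (fun x => (hP.d0 x).exp) s)).congr fun v z => by simp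

lemma Der_logden [Nonempty S] : Der (fun z => Real.log (den W f z)) (fun v z => rr W f f1 z v) := by
  classical
  refine ((Der_den hP hW).comp (φ' := fun x => x⁻¹) fun z => Real.hasDerivAt_log (den_pos hW).ne').congr
    fun v z => ?_
  simp only [rr, pp]; ring

lemma Der_pp [Nonempty S] [DecidableEq S] (v : S) : Der (fun z => pp W f z v)
    (fun u z => (if u = v then rr W f f1 z v else 0) - pp W f z v * rr W f f1 z u) := by
  refine (((Der.const (W v)).mul (Der.eval (φ := fun x => Real.exp (f x)) (fun x => (hP.d0 x).exp) v)).mul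
    ((Der_den hP hW).comp (φ := fun x => x⁻¹) (φ' := fun x => -(x ^ 2)⁻¹)
      fun z => hasDerivAt_inv (den_pos hW).ne')).congr fun u z => ?_
  simp only [rr, pp, sq, mul_inv]
  split_ifs <;> ring

lemma Der_rr [Nonempty S] (v : S) : Der (fun z => rr W f f1 z v)
    (fun u z => L2 W f f1 f2 z v u) := by
  classical
  refine ((Der_pp hP hW v).mul (Der.eval hP.d1 v)).congr fun u z => ?_
  simp only [L2, pc, cf, rr]
  split_ifs <;> ring

lemma Der_pc [Nonempty S] [DecidableEq S] (v : S) : Der (fun z => pc W f f1 f2 z v)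
    (fun u z => (if u = v then ec W f f1 f2 f3 z v else 0) - pc W f f1 f2 z v * rr W f f1 z u) := by
  refine ((Der_pp hP hW v).mul (Der.eval (φ := cf f1 f2)
    (φ' := fun x => 2 * (f1 x * f2 x) + f3 x) (fun x =>
      (((hP.d1 x).mul (hP.d1 x)).add (hP.d2 x)).congr_deriv (by ring)) v)).congr fun u z => ?_
  simp only [ec, pc, rr]
  split_ifs <;> ring

lemma Der_Dr [Nonempty S] (v : S) : Der (fun z => Dr W f f1 D z v)
    (fun u z => D v u * pc W f f1 f2 z u - Dr W f f1 D z v * rr W f f1 z u) := by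
  classical
  refine (Der.sum Finset.univ fun w _ => (Der.const (D v w)).mul (Der_rr hP hW w)).congr fun u z => ?_
  simp only [zero_mul, zero_add, L2, mul_sub, Finset.sum_sub_distrib]
  simp [Dr, Finset.sum_mul, mul_assoc]

lemma Der_rDr [Nonempty S] (hsym : ∀ u v, D u v = D v u) : Der (fun z => rDr W f f1 D z)
    (fun u z => 2 * (Dr W f f1 D z u * pc W f f1 f2 z u - rDr W f f1 D z * rr W f f1 z u)) := by
  classical
  refine (Der.sum Finset.univ fun v _ => (Der_rr hP hW v).mul (Der_Dr hP hW v)).congr fun u z => ?_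
  simp only [L2, sub_mul, mul_sub, Finset.sum_add_distrib, Finset.sum_sub_distrib, ite_mul, zero_mul,
    Finset.sum_ite_eq, Finset.mem_univ, if_true]
  have e1 : ∑ v, rr W f f1 z v * rr W f f1 z u * Dr W f f1 D z v =
      rDr W f f1 D z * rr W f f1 z u := by
    rw [rDr, Finset.sum_mul]; exact Finset.sum_congr rfl fun v _ => by ring
  have e2 : ∑ v, rr W f f1 z v * (D v u * pc W f f1 f2 z u) =
      Dr W f f1 D z u * pc W f f1 f2 z u := by
    rw [Dr, Finset.sum_mul]; exact Finset.sum_congr rfl fun v _ => by rw [hsym v u]; ring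
  have e3 : ∑ v, rr W f f1 z v * (Dr W f f1 D z v * rr W f f1 z u) =
      rDr W f f1 D z * rr W f f1 z u := by
    rw [rDr, Finset.sum_mul]; exact Finset.sum_congr rfl fun v _ => by ring
  rw [e1, e2, e3]; ring

lemma Der_QQ [Nonempty S] (hsym : ∀ u v, D u v = D v u) : Der (fun z => QQ W f f1 D z)
    (fun v z => Q1 W f f1 f2 D z v) :=
  ((Der.const (-(1 / 2) : ℝ)).mul (Der_rDr hP hW hsym)).congr fun v z => by simp only [Q1]; ring

lemma Der_Q1 [Nonempty S] (hsym : ∀ u v, D u v = D v u) (v : S) :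
    Der (fun z => Q1 W f f1 f2 D z v) (fun u z => Q2 W f f1 f2 f3 D z v u) := by
  classical
  have h := ((Der.const (-1 : ℝ)).mul (((Der_Dr (D := D) hP hW v).mul (Der_pc hP hW v)).add
    ((Der.const (-1 : ℝ)).mul ((Der_rDr (D := D) hP hW hsym).mul (Der_rr hP hW v))))).congr
    (B := fun u z => Q2 W f f1 f2 f3 D z v u) fun u z => by simp only [Q2]; ring
  intro c c' τ hc
  exact (h c c' τ hc).congr_of_eventuallyEq (Filter.Eventually.of_forall fun x => by
    simp only [Q1]; ring)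

omit hP hW

lemma sum_ite_D (hdiag : ∀ v, D v v = 0) (g : S → ℝ) (v : S) [DecidableEq S] :
    ∑ u, D u v * (if u = v then g v else 0) = 0 := by simp [hdiag]

lemma first_sum (hdiag : ∀ v, D v v = 0) (hsym : ∀ u v, D u v = D v u) :
    1 / 2 * ∑ v, ∑ u, D u v * L2 W f f1 f2 z v u = QQ W f f1 D z := by
  classical
  simp only [L2, mul_sub, Finset.sum_sub_distrib, sum_ite_D hdiag, QQ, rDr, Dr,
    Finset.mul_sum, ← Finset.sum_neg_distrib, zero_sub]
  refine Finset.sum_congr rfl fun v _ => Finset.sum_congr rfl fun u _ => ?_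
  rw [hsym u v]; ring

lemma second_sum (hdiag : ∀ v, D v v = 0) (hsym : ∀ u v, D u v = D v u) :
    ∑ v, ∑ u, D u v * Q2 W f f1 f2 f3 D z v u =
      -(∑ v, ∑ u, D v u ^ 2 * (pc W f f1 f2 z u * pc W f f1 f2 z v))
      + 4 * ∑ v, pc W f f1 f2 z v * Dr W f f1 D z v ^ 2 - 3 * rDr W f f1 D z ^ 2 := by
  classical
  set p := pc W f f1 f2 z
  set r := rr W f f1 z
  set d := Dr W f f1 D z
  set R := rDr W f f1 D z
  have pt : ∀ v u, D u v * Q2 W f f1 f2 f3 D z v u = -(D v u ^ 2 * (p u * p v))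
      + 2 * (p v * d v) * (D v u * r u) + 2 * (D v u * (d u * p u * r v))
      - 3 * R * (r v * (D v u * r u))
      - d v * (D u v * if u = v then ec W f f1 f2 f3 z v else 0)
      + R * (D u v * if u = v then p v else 0) := by
    intro v u
    simp only [Q2, L2]
    rw [hsym u v]; ring
  simp only [pt, Finset.sum_add_distrib, Finset.sum_sub_distrib, Finset.sum_neg_distrib,
    ← Finset.mul_sum, sum_ite_D hdiag, mul_zero, Finset.sum_const_zero]
  have A : ∀ v, ∑ u, D v u * r u = d v := fun v => rfl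
  have B : ∑ v, ∑ u, D v u * (d u * p u * r v) = ∑ v, p v * d v ^ 2 := by
    rw [Finset.sum_comm]
    refine Finset.sum_congr rfl fun u _ => ?_
    rw [sq, ← mul_assoc]
    conv_rhs => arg 2; rw [← A u]
    rw [Finset.mul_sum]
    exact Finset.sum_congr rfl fun v _ => by rw [hsym v u]; ring
  have C : ∑ v, 2 * (p v * d v) * ∑ u, D v u * r u = 2 * ∑ v, p v * d v ^ 2 := by
    rw [Finset.mul_sum]; exact Finset.sum_congr rfl fun v _ => by rw [A v]; ring
  have E : ∑ v, r v * ∑ u, D v u * r u = R := rfl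
  rw [B, C, E]; ring

end Vale.Agent.P157.Lim
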